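import Mathlib

/-!
# TR/Core: the supermodular core tool (row 52 insurance module)

For a supermodular set function `Ψ : Finset α → ℝ` and a price `lam`, `core Ψ lam Z` is the
largest maximiser of `U ↦ Ψ U - lam * |U|` over `U ⊆ Z`.  We prove:

* `core_subset`, `core_isMax` (the core is a maximiser), `subset_core` (it contains every maximiser);
* `core_mono` (Topkis: monotone in `Z`), `core_anti` (decreasing in `lam`);
* `core_stable` (`core Ψ lam Z ⊆ Z' ⊆ Z → core Ψ lam Z' = core Ψ lam Z`), `core_idem`,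
  and the fragment form `core_fragment`;
* `core_tight` (removing `B` from the core loses at least `lam * |B|`);
* supermodularity of `U ↦ ∑ S ∈ U.powerset, g S` for `0 ≤ g` (`supermod_powersetSum`) and of
  the sprinkled potential `U ↦ ∑ S, g S * σ ^ (S \ U).card` for `0 ≤ σ ≤ 1` (`supermod_sprinkled`).

Helper module only (no statement file).  Mathlib only.
-/

set_option autoImplicit false
set_option linter.unusedSectionVars false

namespace Crest.Agent.TR

open Finset

variable {α : Type*} [DecidableEq α]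

/-- Supermodularity of a real set function on finite sets. -/
def Supermod (Ψ : Finset α → ℝ) : Prop :=
  ∀ A B : Finset α, Ψ A + Ψ B ≤ Ψ (A ∪ B) + Ψ (A ∩ B)

/-- The Lagrangian objective `Ψ U - lam * |U|`. -/
def obj (Ψ : Finset α → ℝ) (lam : ℝ) (U : Finset α) : ℝ := Ψ U - lam * (U.card : ℝ)

theorem obj_union_inter {Ψ : Finset α → ℝ} (h : Supermod Ψ) (lam : ℝ) (A B : Finset α) :
    obj Ψ lam A + obj Ψ lam B ≤ obj Ψ lam (A ∪ B) + obj Ψ lam (A ∩ B) := by
  have hc : ((A ∪ B).card : ℝ) + ((A ∩ B).card : ℝ) = (A.card : ℝ) + (B.card : ℝ) := by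
    exact_mod_cast Finset.card_union_add_card_inter A B
  have hc' : lam * ((A ∪ B).card : ℝ) + lam * ((A ∩ B).card : ℝ)
      = lam * (A.card : ℝ) + lam * (B.card : ℝ) := by
    rw [← mul_add, hc, mul_add]
  have := h A B
  unfold obj
  linarith

/-- The maximisers of the objective among the subsets of `Z`. -/
noncomputable def maximisers (Ψ : Finset α → ℝ) (lam : ℝ) (Z : Finset α) : Finset (Finset α) := by
  classical
  exact Z.powerset.filter (fun U => ∀ V ∈ Z.powerset, obj Ψ lam V ≤ obj Ψ lam U)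

theorem mem_maximisers {Ψ : Finset α → ℝ} {lam : ℝ} {Z U : Finset α} :
    U ∈ maximisers Ψ lam Z ↔ U ⊆ Z ∧ ∀ V, V ⊆ Z → obj Ψ lam V ≤ obj Ψ lam U := by
  classical
  unfold maximisers
  simp [Finset.mem_filter, Finset.mem_powerset]

theorem maximisers_nonempty (Ψ : Finset α → ℝ) (lam : ℝ) (Z : Finset α) :
    (maximisers Ψ lam Z).Nonempty := by
  obtain ⟨U, hU, hmax⟩ := Finset.exists_max_image Z.powerset (obj Ψ lam)
    ⟨∅, Finset.mem_powerset.mpr (Finset.empty_subset Z)⟩
  refine ⟨U, mem_maximisers.mpr ⟨Finset.mem_powerset.mp hU, fun V hV => ?_⟩⟩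
  exact hmax V (Finset.mem_powerset.mpr hV)

theorem maximisers_union {Ψ : Finset α → ℝ} (h : Supermod Ψ) {lam : ℝ} {Z U₁ U₂ : Finset α}
    (h₁ : U₁ ∈ maximisers Ψ lam Z) (h₂ : U₂ ∈ maximisers Ψ lam Z) :
    U₁ ∪ U₂ ∈ maximisers Ψ lam Z := by
  rw [mem_maximisers] at h₁ h₂ ⊢
  refine ⟨Finset.union_subset h₁.1 h₂.1, fun V hV => ?_⟩
  have hs := obj_union_inter h lam U₁ U₂
  have hi : obj Ψ lam (U₁ ∩ U₂) ≤ obj Ψ lam U₁ :=
    h₁.2 _ (Finset.inter_subset_left.trans h₁.1)
  have hV₂ := h₂.2 V hV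
  linarith

/-- The core: the union of all maximisers (= the largest maximiser when `Ψ` is supermodular). -/
noncomputable def core (Ψ : Finset α → ℝ) (lam : ℝ) (Z : Finset α) : Finset α :=
  (maximisers Ψ lam Z).sup id

theorem core_mem_maximisers {Ψ : Finset α → ℝ} (h : Supermod Ψ) (lam : ℝ) (Z : Finset α) :
    core Ψ lam Z ∈ maximisers Ψ lam Z := by
  unfold core
  rw [← Finset.sup'_eq_sup (maximisers_nonempty Ψ lam Z)]
  refine Finset.sup'_induction (maximisers_nonempty Ψ lam Z) id
    (p := fun U => U ∈ maximisers Ψ lam Z) ?_ ?_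
  · intro a₁ h₁ a₂ h₂
    exact maximisers_union h h₁ h₂
  · intro b hb
    exact hb

theorem core_subset {Ψ : Finset α → ℝ} (h : Supermod Ψ) (lam : ℝ) (Z : Finset α) :
    core Ψ lam Z ⊆ Z :=
  (mem_maximisers.mp (core_mem_maximisers h lam Z)).1

/-- The core is a maximiser of the objective among the subsets of `Z`. -/
theorem core_isMax {Ψ : Finset α → ℝ} (h : Supermod Ψ) (lam : ℝ) {Z V : Finset α} (hV : V ⊆ Z) :
    obj Ψ lam V ≤ obj Ψ lam (core Ψ lam Z) :=
  (mem_maximisers.mp (core_mem_maximisers h lam Z)).2 V hV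

/-- Every maximiser inside `Z` is contained in the core. -/
theorem subset_core {Ψ : Finset α → ℝ} {lam : ℝ} {Z U : Finset α}
    (hU : U ∈ maximisers Ψ lam Z) : U ⊆ core Ψ lam Z := by
  unfold core
  exact Finset.le_sup (f := id) hU

/-- Topkis monotonicity: the core is monotone in the ambient set. -/
theorem core_mono {Ψ : Finset α → ℝ} (h : Supermod Ψ) (lam : ℝ) {Z Z' : Finset α}
    (hZ : Z ⊆ Z') : core Ψ lam Z ⊆ core Ψ lam Z' := by
  set U := core Ψ lam Z with hUdef
  set U' := core Ψ lam Z' with hU'def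
  have hUZ : U ⊆ Z := core_subset h lam Z
  have hU'Z' : U' ⊆ Z' := core_subset h lam Z'
  have hs := obj_union_inter h lam U U'
  have hi : obj Ψ lam (U ∩ U') ≤ obj Ψ lam U :=
    core_isMax h lam (Finset.inter_subset_left.trans hUZ)
  have hmem : U ∪ U' ∈ maximisers Ψ lam Z' := by
    rw [mem_maximisers]
    refine ⟨Finset.union_subset (hUZ.trans hZ) hU'Z', fun V hV => ?_⟩
    have := core_isMax h lam hV
    rw [← hU'def] at this
    linarith
  exact Finset.subset_union_left.trans (subset_core hmem)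

/-- The cores are nested: a larger price gives a smaller core. -/
theorem core_anti {Ψ : Finset α → ℝ} (h : Supermod Ψ) {lam lam' : ℝ} (hl : lam ≤ lam')
    (Z : Finset α) : core Ψ lam' Z ⊆ core Ψ lam Z := by
  set U := core Ψ lam Z with hUdef
  set U' := core Ψ lam' Z with hU'def
  have hUZ : U ⊆ Z := core_subset h lam Z
  have hU'Z : U' ⊆ Z := core_subset h lam' Z
  have hs := obj_union_inter h lam U U'
  have hi' : obj Ψ lam' (U ∩ U') ≤ obj Ψ lam' U' :=
    core_isMax h lam' (Finset.inter_subset_right.trans hU'Z)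
  have hcard : ((U ∩ U').card : ℝ) ≤ (U'.card : ℝ) := by
    exact_mod_cast Finset.card_le_card (Finset.inter_subset_right : U ∩ U' ⊆ U')
  have hi : obj Ψ lam (U ∩ U') ≤ obj Ψ lam U' := by
    unfold obj at hi' ⊢
    nlinarith [mul_nonneg (sub_nonneg.mpr hl) (sub_nonneg.mpr hcard)]
  have hmem : U ∪ U' ∈ maximisers Ψ lam Z := by
    rw [mem_maximisers]
    refine ⟨Finset.union_subset hUZ hU'Z, fun V hV => ?_⟩
    have := core_isMax h lam hV
    rw [← hUdef] at this
    linarith
  exact Finset.subset_union_right.trans (subset_core hmem)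

/-- Stability: shrinking the ambient set to anything that still contains the core does not
change the core. -/
theorem core_stable {Ψ : Finset α → ℝ} (h : Supermod Ψ) (lam : ℝ) {Z Z' : Finset α}
    (h₁ : core Ψ lam Z ⊆ Z') (h₂ : Z' ⊆ Z) : core Ψ lam Z' = core Ψ lam Z := by
  apply Finset.Subset.antisymm (core_mono h lam h₂)
  apply subset_core
  rw [mem_maximisers]
  exact ⟨h₁, fun V hV => core_isMax h lam (hV.trans h₂)⟩

theorem core_idem {Ψ : Finset α → ℝ} (h : Supermod Ψ) (lam : ℝ) (Z : Finset α) :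
    core Ψ lam (core Ψ lam Z) = core Ψ lam Z :=
  core_stable h lam (Finset.Subset.refl _) (core_subset h lam Z)

/-- Fragment form: for `T = core (W ∪ A) \ W` we have `T ⊆ A \ W` and the core of `W ∪ T` is the
core of `W ∪ A`; so the core of `Z = W ∪ T` is recoverable from `Z` alone. -/
theorem core_fragment {Ψ : Finset α → ℝ} (h : Supermod Ψ) (lam : ℝ) (W A : Finset α) :
    core Ψ lam (W ∪ A) \ W ⊆ A \ W ∧
      core Ψ lam (W ∪ (core Ψ lam (W ∪ A) \ W)) = core Ψ lam (W ∪ A) := by
  have hsub := core_subset h lam (W ∪ A)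
  constructor
  · intro x hx
    rw [Finset.mem_sdiff] at hx ⊢
    refine ⟨?_, hx.2⟩
    have := hsub hx.1
    rw [Finset.mem_union] at this
    exact this.resolve_left hx.2
  · apply core_stable h lam
    · intro x hx
      by_cases hxW : x ∈ W
      · exact Finset.mem_union_left _ hxW
      · exact Finset.mem_union_right _ (Finset.mem_sdiff.mpr ⟨hx, hxW⟩)
    · apply Finset.union_subset Finset.subset_union_left
      intro x hx
      exact hsub (Finset.mem_sdiff.mp hx).1

/-- Tightness of the core: removing a subset `B` loses at least `lam * |B|`. -/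
theorem core_tight {Ψ : Finset α → ℝ} (h : Supermod Ψ) (lam : ℝ) (Z : Finset α) {B : Finset α}
    (hB : B ⊆ core Ψ lam Z) :
    lam * (B.card : ℝ) ≤ Ψ (core Ψ lam Z) - Ψ (core Ψ lam Z \ B) := by
  have hsub := core_subset h lam Z
  have hmax := core_isMax h lam (Finset.sdiff_subset.trans hsub : core Ψ lam Z \ B ⊆ Z)
  have hcard : ((core Ψ lam Z \ B).card : ℝ) = ((core Ψ lam Z).card : ℝ) - (B.card : ℝ) := by
    rw [Finset.card_sdiff_of_subset hB]
    rw [Nat.cast_sub (Finset.card_le_card hB)]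
  unfold obj at hmax
  rw [hcard] at hmax
  nlinarith

/-- A nonempty core has density at least `lam` above the empty set. -/
theorem core_density {Ψ : Finset α → ℝ} (h : Supermod Ψ) (lam : ℝ) (Z : Finset α) :
    lam * ((core Ψ lam Z).card : ℝ) ≤ Ψ (core Ψ lam Z) - Ψ ∅ := by
  have := core_tight h lam Z (Finset.Subset.refl (core Ψ lam Z))
  simpa using this

/-- Two-price sandwich (discrete layer cake, one step): the drop of `Ψ` between the cores at
prices `lam` and `lam'` is between `lam` and `lam'` times the drop in size. -/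
theorem core_two_price {Ψ : Finset α → ℝ} (h : Supermod Ψ) (lam lam' : ℝ)
    (Z : Finset α) :
    lam * (((core Ψ lam Z).card : ℝ) - ((core Ψ lam' Z).card : ℝ))
        ≤ Ψ (core Ψ lam Z) - Ψ (core Ψ lam' Z) ∧
      Ψ (core Ψ lam Z) - Ψ (core Ψ lam' Z)
        ≤ lam' * (((core Ψ lam Z).card : ℝ) - ((core Ψ lam' Z).card : ℝ)) := by
  have h₁ := core_isMax h lam (core_subset h lam' Z)
  have h₂ := core_isMax h lam' (core_subset h lam Z)
  unfold obj at h₁ h₂
  constructor <;> nlinarith

/-- Discrete layer cake along any grid of prices `lam 0, lam 1, …` (in applications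
nondecreasing, so that the cores decrease):
`Ψ(C₀) - Ψ(C_m) ≤ ∑_{i<m} lam (i+1) * (|C_i| - |C_{i+1}|)` with `C_i = core Ψ (lam i) Z`. -/
theorem core_layer_cake_le {Ψ : Finset α → ℝ} (h : Supermod Ψ) (lam : ℕ → ℝ)
    (Z : Finset α) (m : ℕ) :
    Ψ (core Ψ (lam 0) Z) - Ψ (core Ψ (lam m) Z)
      ≤ ∑ i ∈ Finset.range m, lam (i + 1) *
          (((core Ψ (lam i) Z).card : ℝ) - ((core Ψ (lam (i + 1)) Z).card : ℝ)) := by
  induction m with
  | zero => simp
  | succ m ih =>
    rw [Finset.sum_range_succ]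
    have := (core_two_price h (lam m) (lam (m + 1)) Z).2
    linarith

/-- Discrete layer cake, lower bound:
`∑_{i<m} lam i * (|C_i| - |C_{i+1}|) ≤ Ψ(C₀) - Ψ(C_m)`. -/
theorem core_layer_cake_ge {Ψ : Finset α → ℝ} (h : Supermod Ψ) (lam : ℕ → ℝ)
    (Z : Finset α) (m : ℕ) :
    ∑ i ∈ Finset.range m, lam i *
          (((core Ψ (lam i) Z).card : ℝ) - ((core Ψ (lam (i + 1)) Z).card : ℝ))
      ≤ Ψ (core Ψ (lam 0) Z) - Ψ (core Ψ (lam m) Z) := by
  induction m with
  | zero => simp
  | succ m ih =>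
    rw [Finset.sum_range_succ]
    have := (core_two_price h (lam m) (lam (m + 1)) Z).1
    linarith

/-- For a monotone potential the core at price `0` is everything. -/
theorem core_zero_of_monotone {Ψ : Finset α → ℝ} (h : Supermod Ψ)
    (hmon : ∀ A B : Finset α, A ⊆ B → Ψ A ≤ Ψ B) (Z : Finset α) : core Ψ 0 Z = Z := by
  apply Finset.Subset.antisymm (core_subset h 0 Z)
  apply subset_core
  rw [mem_maximisers]
  refine ⟨Finset.Subset.refl Z, fun V hV => ?_⟩
  unfold obj
  have := hmon V Z hV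
  simpa using this

/-- For a monotone potential the core is empty as soon as the price exceeds the total mass. -/
theorem core_eq_empty_of_large {Ψ : Finset α → ℝ} (h : Supermod Ψ)
    (hmon : ∀ A B : Finset α, A ⊆ B → Ψ A ≤ Ψ B) {lam : ℝ} (Z : Finset α)
    (hlam : Ψ Z - Ψ ∅ < lam) : core Ψ lam Z = ∅ := by
  by_contra hne
  have hpos : 0 < (core Ψ lam Z).card := Finset.card_pos.mpr (Finset.nonempty_iff_ne_empty.mpr hne)
  have h1 : (1 : ℝ) ≤ ((core Ψ lam Z).card : ℝ) := by exact_mod_cast hpos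
  have hd := core_density h lam Z
  have hZ := hmon _ _ (core_subset h lam Z)
  have h0 : 0 ≤ Ψ Z - Ψ ∅ := sub_nonneg.mpr (hmon _ _ (Finset.empty_subset Z))
  have hlam0 : 0 < lam := lt_of_le_of_lt h0 hlam
  nlinarith

/-! ### The two potentials of row 52 are supermodular -/

/-- `U ↦ ∑ S ∈ U.powerset, g S` (the fractional-cover mass `Z_g`) is supermodular for `0 ≤ g`. -/
theorem supermod_powersetSum (g : Finset α → ℝ) (hg : ∀ S, 0 ≤ g S) :
    Supermod (fun U => ∑ S ∈ U.powerset, g S) := by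
  intro A B
  show ∑ S ∈ A.powerset, g S + ∑ S ∈ B.powerset, g S
      ≤ ∑ S ∈ (A ∪ B).powerset, g S + ∑ S ∈ (A ∩ B).powerset, g S
  have hinter : (A ∩ B).powerset = A.powerset ∩ B.powerset := by
    ext S
    simp only [Finset.mem_powerset, Finset.mem_inter, Finset.subset_inter_iff]
  rw [← Finset.sum_union_inter, hinter]
  have hsub : A.powerset ∪ B.powerset ⊆ (A ∪ B).powerset := by
    intro S hS
    rw [Finset.mem_union, Finset.mem_powerset, Finset.mem_powerset] at hS
    rw [Finset.mem_powerset]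
    rcases hS with hS | hS
    · exact hS.trans Finset.subset_union_left
    · exact hS.trans Finset.subset_union_right
  have := Finset.sum_le_sum_of_subset_of_nonneg hsub (f := g) (fun S _ _ => hg S)
  linarith

theorem powersetSum_mono (g : Finset α → ℝ) (hg : ∀ S, 0 ≤ g S) {A B : Finset α} (hAB : A ⊆ B) :
    ∑ S ∈ A.powerset, g S ≤ ∑ S ∈ B.powerset, g S :=
  Finset.sum_le_sum_of_subset_of_nonneg (Finset.powerset_mono.mpr hAB) (fun S _ _ => hg S)

/-- Pointwise supermodularity of `U ↦ σ ^ |S \ U|` for `0 ≤ σ ≤ 1`. -/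
theorem pow_sdiff_supermod (S A B : Finset α) {σ : ℝ} (h0 : 0 ≤ σ) (h1 : σ ≤ 1) :
    σ ^ (S \ A).card + σ ^ (S \ B).card
      ≤ σ ^ (S \ (A ∪ B)).card + σ ^ (S \ (A ∩ B)).card := by
  set a := (S \ (A ∪ B)).card with ha
  set x := ((S \ A) ∩ B).card with hx
  set y := ((S \ B) ∩ A).card with hy
  have hA : (S \ A).card = a + x := by
    have := Finset.card_sdiff_add_card_inter (S \ A) B
    have he : (S \ A) \ B = S \ (A ∪ B) := by
      ext z
      simp only [Finset.mem_sdiff, Finset.mem_union]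
      tauto
    rw [he] at this
    omega
  have hB : (S \ B).card = a + y := by
    have := Finset.card_sdiff_add_card_inter (S \ B) A
    have he : (S \ B) \ A = S \ (A ∪ B) := by
      ext z
      simp only [Finset.mem_sdiff, Finset.mem_union]
      tauto
    rw [he] at this
    omega
  have hAB : (S \ (A ∩ B)).card = a + x + y := by
    have h1' : S \ (A ∩ B) = (S \ A) ∪ (S \ B) := by
      ext z
      simp only [Finset.mem_sdiff, Finset.mem_inter, Finset.mem_union]
      tauto
    have h2' : (S \ A) ∩ (S \ B) = S \ (A ∪ B) := by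
      ext z
      simp only [Finset.mem_sdiff, Finset.mem_inter, Finset.mem_union]
      tauto
    have := Finset.card_union_add_card_inter (S \ A) (S \ B)
    rw [← h1', h2'] at this
    omega
  rw [hA, hB, hAB, pow_add, pow_add, pow_add, pow_add]
  have pa : 0 ≤ σ ^ a := pow_nonneg h0 a
  have px : σ ^ x ≤ 1 := pow_le_one₀ h0 h1
  have py : σ ^ y ≤ 1 := pow_le_one₀ h0 h1
  nlinarith [mul_nonneg (mul_nonneg pa (sub_nonneg.mpr px)) (sub_nonneg.mpr py)]

/-- The `σ`-sprinkled potential `U ↦ ∑_S g S * σ ^ |S \ U|` (`= E Z_g(U ∪ X_σ)`) is supermodular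
for `0 ≤ g`, `0 ≤ σ ≤ 1`. -/
theorem supermod_sprinkled [Fintype α] (g : Finset α → ℝ) (hg : ∀ S, 0 ≤ g S) {σ : ℝ}
    (h0 : 0 ≤ σ) (h1 : σ ≤ 1) :
    Supermod (fun U => ∑ S : Finset α, g S * σ ^ (S \ U).card) := by
  intro A B
  show ∑ S : Finset α, g S * σ ^ (S \ A).card + ∑ S : Finset α, g S * σ ^ (S \ B).card
      ≤ ∑ S : Finset α, g S * σ ^ (S \ (A ∪ B)).card + ∑ S : Finset α, g S * σ ^ (S \ (A ∩ B)).card
  rw [← Finset.sum_add_distrib, ← Finset.sum_add_distrib]
  apply Finset.sum_le_sum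
  intro S _
  have := pow_sdiff_supermod S A B h0 h1
  nlinarith [hg S]

/-- The sprinkled potential is monotone. -/
theorem sprinkled_mono [Fintype α] (g : Finset α → ℝ) (hg : ∀ S, 0 ≤ g S) {σ : ℝ}
    (h0 : 0 ≤ σ) (h1 : σ ≤ 1) {A B : Finset α} (hAB : A ⊆ B) :
    ∑ S : Finset α, g S * σ ^ (S \ A).card ≤ ∑ S : Finset α, g S * σ ^ (S \ B).card := by
  apply Finset.sum_le_sum
  intro S _
  apply mul_le_mul_of_nonneg_left _ (hg S)
  exact pow_le_pow_of_le_one h0 h1 (Finset.card_le_card (Finset.sdiff_subset_sdiff (Finset.Subset.refl S) hAB))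

/-- The sprinkled potential dominates the mass `Z_g`: sets inside `U` count with weight one. -/
theorem powersetSum_le_sprinkled [Fintype α] (g : Finset α → ℝ) (hg : ∀ S, 0 ≤ g S) {σ : ℝ}
    (h0 : 0 ≤ σ) (U : Finset α) :
    ∑ S ∈ U.powerset, g S ≤ ∑ S : Finset α, g S * σ ^ (S \ U).card := by
  have h₁ : ∑ S ∈ U.powerset, g S = ∑ S ∈ U.powerset, g S * σ ^ (S \ U).card := by
    apply Finset.sum_congr rfl
    intro S hS
    rw [Finset.mem_powerset] at hS
    rw [Finset.sdiff_eq_empty_iff_subset.mpr hS]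
    simp
  rw [h₁]
  apply Finset.sum_le_sum_of_subset_of_nonneg (Finset.subset_univ _)
  intro S _ _
  exact mul_nonneg (hg S) (pow_nonneg h0 _)

/-- At the empty set the sprinkled potential is the fractional cost at density `σ`. -/
theorem sprinkled_empty [Fintype α] (g : Finset α → ℝ) (σ : ℝ) :
    ∑ S : Finset α, g S * σ ^ (S \ (∅ : Finset α)).card = ∑ S : Finset α, g S * σ ^ S.card := by
  simp

end Crest.Agent.TR
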