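import Mathlib

/-!
# Row 52 (S0071–S0073) insurance library: the counting engine

Finite-sum facts about the product measure on `Finset α` (each point present independently with
probability `q`), written as explicit sums so that they plug into the frozen statements of
S0071/S0072 (families are `Finset (Finset α)`, costs are `∑ S ∈ G, ρ ^ S.card`).

* `mu q W = q ^ |W| * (1 - q) ^ (card α - |W|)`, `sum_mu : ∑ W, mu q W = 1`.
* `sum_mu_superset : ∑ W ⊇ S, mu q W = q ^ |S|` and the first-moment identity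
  `sum_mu_mul_sum_powerset : ∑ W, mu q W * ∑ S ⊆ W, g S = ∑ S, g S * q ^ |S|`.
* `mu_mul_pow_of_disjoint`: for disjoint `W`, `T`:
  `mu q W * ρ ^ |T| = mu q (W ∪ T) * (ρ (1 - q) / q) ^ |T|`.
* `engine`: the change of variables `(W, T) ↦ Z = W ∪ T` in its general form: if every fragment
  `T ∈ G W` is disjoint from `W` and admissible for `Z = W ∪ T` (`T ∈ A Z`), then
  `∑ W, mu q W * cost ρ (G W) ≤ ∑ Z, mu q Z * ∑ T ∈ A Z, β ^ |T|`, `β = ρ (1 - q) / q`.
* `engine_powerset`: the special case `A Z = nonempty subsets of Q Z`, value `(1 + β) ^ |Q Z| - 1`.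
* `sum_pow_card_filter_le`: `∑_{T ⊆ P, |P| ≤ k |T|} β ^ |T| ≤ (2 γ) ^ |P|` when `β ≤ γ ^ k`, `γ ≤ 1`.
* averaging: `exists_le_of_sum_mu_le`, `exists_forall_lt_of_sum_lt_one` (Markov + union bound).
* bookkeeping for covers and costs.

No statement of the row is proved here.
-/

set_option autoImplicit false

namespace Crest.Agent.TR

open Finset

variable {α : Type*} [Fintype α] [DecidableEq α]

/-- The weight of the set `W` under the product measure of density `q` on `Finset α`. -/
noncomputable def mu (q : ℝ) (W : Finset α) : ℝ :=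
  q ^ W.card * (1 - q) ^ (Fintype.card α - W.card)

/-- The cost of the family `G` at level `ρ`. -/
noncomputable def cost (ρ : ℝ) (G : Finset (Finset α)) : ℝ := ∑ S ∈ G, ρ ^ S.card

/-- `G` covers `F`: every member of `F` contains a member of `G`. -/
def Covers (G F : Finset (Finset α)) : Prop := ∀ H ∈ F, ∃ S ∈ G, S ⊆ H

omit [DecidableEq α] in
theorem mu_nonneg {q : ℝ} (h0 : 0 ≤ q) (h1 : q ≤ 1) (W : Finset α) : 0 ≤ mu q W := by
  unfold mu
  have : 0 ≤ 1 - q := by linarith
  positivity

omit [DecidableEq α] in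
theorem sum_mu (q : ℝ) : ∑ W : Finset α, mu q W = 1 := by
  have h := Fintype.sum_pow_mul_eq_add_pow α q (1 - q)
  unfold mu
  rw [h]
  simp

omit [Fintype α] [DecidableEq α] in
theorem cost_nonneg {ρ : ℝ} (hρ : 0 ≤ ρ) (G : Finset (Finset α)) : 0 ≤ cost ρ G :=
  Finset.sum_nonneg fun _ _ => pow_nonneg hρ _

omit [Fintype α] [DecidableEq α] in
theorem cost_mono_left {ρ ρ' : ℝ} (hρ : 0 ≤ ρ) (h : ρ ≤ ρ') (G : Finset (Finset α)) :
    cost ρ G ≤ cost ρ' G :=
  Finset.sum_le_sum fun _ _ => pow_le_pow_left₀ hρ h _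

omit [Fintype α] [DecidableEq α] in
theorem cost_mono_right {ρ : ℝ} (hρ : 0 ≤ ρ) {G G' : Finset (Finset α)} (h : G ⊆ G') :
    cost ρ G ≤ cost ρ G' :=
  Finset.sum_le_sum_of_subset_of_nonneg h fun _ _ _ => pow_nonneg hρ _

omit [Fintype α] in
theorem cost_union_le {ρ : ℝ} (hρ : 0 ≤ ρ) (G G' : Finset (Finset α)) :
    cost ρ (G ∪ G') ≤ cost ρ G + cost ρ G' := by
  unfold cost
  have h := Finset.sum_union_inter (s₁ := G) (s₂ := G') (f := fun S : Finset α => ρ ^ S.card)
  have h2 : 0 ≤ ∑ S ∈ G ∩ G', ρ ^ S.card := Finset.sum_nonneg fun _ _ => pow_nonneg hρ _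
  linarith

omit [Fintype α] in
theorem cost_biUnion_le {ι : Type*} {ρ : ℝ} (hρ : 0 ≤ ρ) (s : Finset ι)
    (G : ι → Finset (Finset α)) : cost ρ (s.biUnion G) ≤ ∑ i ∈ s, cost ρ (G i) := by
  classical
  induction s using Finset.induction_on with
  | empty => simp [cost]
  | insert i s hi ih =>
    rw [Finset.biUnion_insert, Finset.sum_insert hi]
    exact (cost_union_le hρ _ _).trans (by linarith)

omit [Fintype α] [DecidableEq α] in
theorem Covers.mono {G G' F F' : Finset (Finset α)} (h : Covers G F) (hG : G ⊆ G')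
    (hF : F' ⊆ F) : Covers G' F' := fun H hH =>
  let ⟨S, hS, hSH⟩ := h H (hF hH)
  ⟨S, hG hS, hSH⟩

omit [Fintype α] in
theorem Covers.union {G G' F F' : Finset (Finset α)} (h : Covers G F) (h' : Covers G' F') :
    Covers (G ∪ G') (F ∪ F') := by
  intro H hH
  rcases Finset.mem_union.1 hH with hH | hH
  · obtain ⟨S, hS, hSH⟩ := h H hH
    exact ⟨S, Finset.mem_union_left _ hS, hSH⟩
  · obtain ⟨S, hS, hSH⟩ := h' H hH
    exact ⟨S, Finset.mem_union_right _ hS, hSH⟩

omit [Fintype α] in
/-- Covering a family by two covers of a decomposition given pointwise. -/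
theorem covers_union_of_forall {G G' F : Finset (Finset α)}
    (h : ∀ H ∈ F, (∃ S ∈ G, S ⊆ H) ∨ (∃ S ∈ G', S ⊆ H)) : Covers (G ∪ G') F := by
  intro H hH
  rcases h H hH with ⟨S, hS, hSH⟩ | ⟨S, hS, hSH⟩
  · exact ⟨S, Finset.mem_union_left _ hS, hSH⟩
  · exact ⟨S, Finset.mem_union_right _ hS, hSH⟩

/-- The key algebraic identity behind the change of variables `(W, T) ↦ W ∪ T`. -/
theorem mu_mul_pow_of_disjoint {q : ℝ} (hq : q ≠ 0) (ρ : ℝ) {W T : Finset α}
    (h : Disjoint W T) :
    mu q W * ρ ^ T.card = mu q (W ∪ T) * (ρ * (1 - q) / q) ^ T.card := by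
  unfold mu
  have hc : (W ∪ T).card = W.card + T.card := Finset.card_union_of_disjoint h
  have hle : W.card + T.card ≤ Fintype.card α := by
    rw [← hc]; exact Finset.card_le_univ _
  have hsub : Fintype.card α - W.card = (Fintype.card α - (W.card + T.card)) + T.card := by
    omega
  rw [hc, hsub, pow_add, pow_add, div_pow, mul_pow]
  have hqT : q ^ T.card ≠ 0 := pow_ne_zero _ hq
  field_simp

/-- The marginal of the product measure: the total weight of the sets containing `S`. -/
theorem sum_mu_superset (q : ℝ) (S : Finset α) :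
    ∑ W ∈ (Finset.univ : Finset (Finset α)).filter (fun W => S ⊆ W), mu q W = q ^ S.card := by
  classical
  -- parametrise the supersets of `S` by the subsets `V` of the complement
  have hbij : ∑ W ∈ (Finset.univ : Finset (Finset α)).filter (fun W => S ⊆ W), mu q W
      = ∑ V ∈ (Sᶜ).powerset, mu q (S ∪ V) := by
    symm
    refine Finset.sum_bij' (fun V _ => S ∪ V) (fun W _ => W \ S) ?_ ?_ ?_ ?_ ?_
    · intro V _
      simp
    · intro W _
      simp only [Finset.mem_powerset]
      intro x hx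
      simp only [Finset.mem_sdiff] at hx
      simp [hx.2]
    · intro V hV
      have hV' : V ⊆ Sᶜ := Finset.mem_powerset.1 hV
      have hd : Disjoint V S := by
        rw [Finset.disjoint_left]
        intro x hxV hxS
        have := hV' hxV
        simp at this
        exact this hxS
      rw [Finset.union_sdiff_left]
      exact Finset.sdiff_eq_self_of_disjoint hd
    · intro W hW
      have hSW : S ⊆ W := (Finset.mem_filter.1 hW).2
      exact Finset.union_sdiff_of_subset hSW
    · intro V _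
      rfl
  rw [hbij]
  have hcard : (Sᶜ).card = Fintype.card α - S.card := Finset.card_compl S
  have hterm : ∀ V ∈ (Sᶜ).powerset,
      mu q (S ∪ V) = q ^ S.card * (q ^ V.card * (1 - q) ^ ((Sᶜ).card - V.card)) := by
    intro V hV
    have hV' : V ⊆ Sᶜ := Finset.mem_powerset.1 hV
    have hd : Disjoint S V := by
      rw [Finset.disjoint_left]
      intro x hxS hxV
      have := hV' hxV
      simp at this
      exact this hxS
    have hc : (S ∪ V).card = S.card + V.card := Finset.card_union_of_disjoint hd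
    unfold mu
    rw [hc, hcard, pow_add, Nat.sub_add_eq, mul_assoc]
  rw [Finset.sum_congr rfl hterm, ← Finset.mul_sum, Finset.sum_pow_mul_eq_add_pow]
  simp

/-- First-moment identity: the expectation of `∑_{S ⊆ W} g S` under the product measure. -/
theorem sum_mu_mul_sum_powerset (q : ℝ) (g : Finset α → ℝ) :
    ∑ W : Finset α, mu q W * ∑ S ∈ W.powerset, g S = ∑ S : Finset α, g S * q ^ S.card := by
  classical
  have h1 : ∀ W : Finset α, mu q W * ∑ S ∈ W.powerset, g S
      = ∑ S : Finset α, if S ⊆ W then mu q W * g S else 0 := by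
    intro W
    rw [Finset.mul_sum, ← Finset.sum_filter]
    refine Finset.sum_congr ?_ fun _ _ => rfl
    ext S
    simp
  rw [Finset.sum_congr rfl fun W _ => h1 W, Finset.sum_comm]
  refine Finset.sum_congr rfl fun S _ => ?_
  rw [← Finset.sum_filter, ← Finset.sum_mul, sum_mu_superset, mul_comm]

/-- **The engine.** Change of variables `(W, T) ↦ Z = W ∪ T`: if every fragment `T ∈ G W` is
disjoint from `W` and admissible for `Z = W ∪ T`, the expected cost at level `ρ` of the fragment
families under `mu q` is at most the expected `β`-weight of the admissible sets of `Z`,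
`β = ρ (1 - q) / q`. -/
theorem engine {q ρ : ℝ} (hq0 : 0 < q) (hq1 : q ≤ 1) (hρ : 0 ≤ ρ)
    (G A : Finset α → Finset (Finset α))
    (hGA : ∀ W, ∀ T ∈ G W, Disjoint W T ∧ T ∈ A (W ∪ T)) :
    ∑ W : Finset α, mu q W * cost ρ (G W) ≤
      ∑ Z : Finset α, mu q Z * ∑ T ∈ A Z, (ρ * (1 - q) / q) ^ T.card := by
  classical
  set β : ℝ := ρ * (1 - q) / q with hβ
  have h1q : 0 ≤ 1 - q := by linarith
  have hβ0 : 0 ≤ β := by positivity
  have hL : ∑ W : Finset α, mu q W * cost ρ (G W)
      = ∑ T : Finset α, ∑ W ∈ (Finset.univ : Finset (Finset α)).filter (fun W => T ∈ G W),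
          mu q (W ∪ T) * β ^ T.card := by
    have h1 : ∀ W : Finset α, mu q W * cost ρ (G W)
        = ∑ T : Finset α, if T ∈ G W then mu q (W ∪ T) * β ^ T.card else 0 := by
      intro W
      unfold cost
      rw [Finset.mul_sum, ← Finset.sum_filter]
      have hfil : (Finset.univ : Finset (Finset α)).filter (fun T => T ∈ G W) = G W := by
        ext T; simp
      rw [hfil]
      refine Finset.sum_congr rfl fun T hT => ?_
      exact mu_mul_pow_of_disjoint hq0.ne' ρ (hGA W T hT).1
    rw [Finset.sum_congr rfl fun W _ => h1 W, Finset.sum_comm]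
    refine Finset.sum_congr rfl fun T _ => ?_
    rw [Finset.sum_filter]
  have hR : ∑ Z : Finset α, mu q Z * ∑ T ∈ A Z, β ^ T.card
      = ∑ T : Finset α, ∑ Z ∈ (Finset.univ : Finset (Finset α)).filter (fun Z => T ∈ A Z),
          mu q Z * β ^ T.card := by
    have h1 : ∀ Z : Finset α, mu q Z * ∑ T ∈ A Z, β ^ T.card
        = ∑ T : Finset α, if T ∈ A Z then mu q Z * β ^ T.card else 0 := by
      intro Z
      rw [Finset.mul_sum, ← Finset.sum_filter]
      have hfil : (Finset.univ : Finset (Finset α)).filter (fun T => T ∈ A Z) = A Z := by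
        ext T; simp
      rw [hfil]
    rw [Finset.sum_congr rfl fun Z _ => h1 Z, Finset.sum_comm]
    refine Finset.sum_congr rfl fun T _ => ?_
    rw [Finset.sum_filter]
  rw [hL, hR]
  refine Finset.sum_le_sum fun T _ => ?_
  have hinj : Set.InjOn (fun W : Finset α => W ∪ T)
      ((Finset.univ : Finset (Finset α)).filter (fun W => T ∈ G W) : Set (Finset α)) := by
    intro W₁ h₁ W₂ h₂ h
    have hd₁ : Disjoint W₁ T := (hGA W₁ T (Finset.mem_filter.1 h₁).2).1
    have hd₂ : Disjoint W₂ T := (hGA W₂ T (Finset.mem_filter.1 h₂).2).1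
    have e₁ : (W₁ ∪ T) \ T = W₁ := by
      rw [Finset.union_sdiff_right]; exact Finset.sdiff_eq_self_of_disjoint hd₁
    have e₂ : (W₂ ∪ T) \ T = W₂ := by
      rw [Finset.union_sdiff_right]; exact Finset.sdiff_eq_self_of_disjoint hd₂
    have h' : W₁ ∪ T = W₂ ∪ T := h
    rw [← e₁, ← e₂, h']
  rw [← Finset.sum_image (f := fun Z : Finset α => mu q Z * β ^ T.card) hinj]
  refine Finset.sum_le_sum_of_subset_of_nonneg ?_ ?_
  · intro Z hZ
    obtain ⟨W, hW, rfl⟩ := Finset.mem_image.1 hZ
    exact Finset.mem_filter.2 ⟨Finset.mem_univ _, (hGA W T (Finset.mem_filter.1 hW).2).2⟩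
  · intro Z _ _
    exact mul_nonneg (mu_nonneg hq0.le hq1 Z) (pow_nonneg hβ0 _)

omit [Fintype α] in
/-- `∑_{∅ ≠ T ⊆ P} β ^ |T| = (1 + β) ^ |P| - 1`. -/
theorem sum_pow_card_nonempty_powerset (β : ℝ) (P : Finset α) :
    ∑ T ∈ P.powerset.filter (fun T => T.Nonempty), β ^ T.card = (1 + β) ^ P.card - 1 := by
  classical
  have h := Finset.sum_pow_mul_eq_add_pow β (1 : ℝ) P
  simp only [one_pow, mul_one] at h
  have hsplit := Finset.sum_filter_add_sum_filter_not P.powerset (fun T : Finset α => T.Nonempty)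
    (fun T => β ^ T.card)
  have hempty : P.powerset.filter (fun T : Finset α => ¬ T.Nonempty) = {∅} := by
    ext T
    simp only [Finset.mem_filter, Finset.mem_powerset, Finset.not_nonempty_iff_eq_empty,
      Finset.mem_singleton]
    constructor
    · exact fun h => h.2
    · rintro rfl; exact ⟨Finset.empty_subset _, rfl⟩
  rw [hempty, Finset.sum_singleton, Finset.card_empty, pow_zero] at hsplit
  rw [add_comm] at h
  linarith

/-- The engine with `A Z` = the nonempty subsets of a set `Q Z` attached to `Z`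
(helper77's probabilistic cost lemma, helper83's (UT) before the ratio cut). -/
theorem engine_powerset {q ρ : ℝ} (hq0 : 0 < q) (hq1 : q ≤ 1) (hρ : 0 ≤ ρ)
    (G : Finset α → Finset (Finset α)) (Q : Finset α → Finset α)
    (hGQ : ∀ W, ∀ T ∈ G W, Disjoint W T ∧ T.Nonempty ∧ T ⊆ Q (W ∪ T)) :
    ∑ W : Finset α, mu q W * cost ρ (G W) ≤
      ∑ Z : Finset α, mu q Z * ((1 + ρ * (1 - q) / q) ^ (Q Z).card - 1) := by
  classical
  have h := engine hq0 hq1 hρ G (fun Z => (Q Z).powerset.filter (fun T => T.Nonempty))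
    (fun W T hT => ⟨(hGQ W T hT).1, Finset.mem_filter.2
      ⟨Finset.mem_powerset.2 (hGQ W T hT).2.2, (hGQ W T hT).2.1⟩⟩)
  refine h.trans (le_of_eq ?_)
  refine Finset.sum_congr rfl fun Z _ => ?_
  rw [sum_pow_card_nonempty_powerset]

omit [Fintype α] [DecidableEq α] in
/-- Ratio cut: the `β`-weight of the subsets `T` of `P` with `|P| ≤ k |T|` is at most
`(2 γ) ^ |P|` as soon as `β ≤ γ ^ k` and `γ ≤ 1`. -/
theorem sum_pow_card_filter_le {β γ : ℝ} (hβ : 0 ≤ β) (hγ0 : 0 ≤ γ) (hγ1 : γ ≤ 1) (k : ℕ)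
    (hβγ : β ≤ γ ^ k) (P : Finset α) :
    ∑ T ∈ P.powerset.filter (fun T => P.card ≤ k * T.card), β ^ T.card ≤ (2 * γ) ^ P.card := by
  classical
  have hterm : ∀ T ∈ P.powerset.filter (fun T => P.card ≤ k * T.card),
      β ^ T.card ≤ γ ^ P.card := by
    intro T hT
    have hle : P.card ≤ k * T.card := (Finset.mem_filter.1 hT).2
    calc β ^ T.card ≤ (γ ^ k) ^ T.card := pow_le_pow_left₀ hβ hβγ _
      _ = γ ^ (k * T.card) := by rw [← pow_mul]
      _ ≤ γ ^ P.card := pow_le_pow_of_le_one hγ0 hγ1 hle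
  calc ∑ T ∈ P.powerset.filter (fun T => P.card ≤ k * T.card), β ^ T.card
      ≤ ∑ _T ∈ P.powerset.filter (fun T => P.card ≤ k * T.card), γ ^ P.card :=
        Finset.sum_le_sum hterm
    _ = ((P.powerset.filter (fun T => P.card ≤ k * T.card)).card : ℝ) * γ ^ P.card := by
        rw [Finset.sum_const, nsmul_eq_mul]
    _ ≤ (2 : ℝ) ^ P.card * γ ^ P.card := by
        refine mul_le_mul_of_nonneg_right ?_ (pow_nonneg hγ0 _)
        have h1 : (P.powerset.filter (fun T => P.card ≤ k * T.card)).card ≤ P.powerset.card :=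
          Finset.card_filter_le _ _
        rw [Finset.card_powerset] at h1
        exact_mod_cast h1
    _ = (2 * γ) ^ P.card := by rw [mul_pow]

omit [DecidableEq α] in
/-- Averaging: a function whose expectation under `mu q` is at most `ε` is at most `ε`
somewhere. -/
theorem exists_le_of_sum_mu_le {q : ℝ} (h0 : 0 ≤ q) (h1 : q ≤ 1) (f : Finset α → ℝ) (ε : ℝ)
    (h : ∑ W : Finset α, mu q W * f W ≤ ε) : ∃ W : Finset α, f W ≤ ε := by
  by_contra hcon
  have hcon' : ∀ W : Finset α, ε < f W := fun W => not_le.1 fun hW => hcon ⟨W, hW⟩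
  have hsum : ∑ W : Finset α, mu q W * (f W - ε) ≤ 0 := by
    have : ∑ W : Finset α, mu q W * (f W - ε)
        = ∑ W : Finset α, mu q W * f W - ε * ∑ W : Finset α, mu q W := by
      rw [Finset.mul_sum, ← Finset.sum_sub_distrib]
      refine Finset.sum_congr rfl fun W _ => by ring
    rw [this, sum_mu]
    linarith
  have hpos : 0 < ∑ W : Finset α, mu q W * (f W - ε) := by
    have hex : ∃ W : Finset α, 0 < mu q W := by
      by_contra hno
      have hz : ∀ W : Finset α, mu q W = 0 := fun W =>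
        le_antisymm (not_lt.1 fun hW => hno ⟨W, hW⟩) (mu_nonneg h0 h1 W)
      have := sum_mu (α := α) q
      rw [Finset.sum_congr rfl fun W _ => hz W] at this
      simp at this
    obtain ⟨W₀, hW₀⟩ := hex
    refine Finset.sum_pos' (fun W _ => mul_nonneg (mu_nonneg h0 h1 W) (by linarith [hcon' W]))
      ⟨W₀, Finset.mem_univ _, mul_pos hW₀ (by linarith [hcon' W₀])⟩
  linarith

omit [DecidableEq α] in
/-- Markov + union bound: finitely many nonnegative functions `f i` with thresholds `c i > 0`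
such that `∑ i, E[f i] / c i < 1` are simultaneously below their thresholds somewhere. -/
theorem exists_forall_lt_of_sum_lt_one {ι : Type*} {q : ℝ} (h0 : 0 ≤ q) (h1 : q ≤ 1)
    (s : Finset ι) (f : ι → Finset α → ℝ) (c : ι → ℝ)
    (hf : ∀ i ∈ s, ∀ W, 0 ≤ f i W) (hc : ∀ i ∈ s, 0 < c i)
    (h : ∑ i ∈ s, (∑ W : Finset α, mu q W * f i W) / c i < 1) :
    ∃ W : Finset α, ∀ i ∈ s, f i W < c i := by
  have hE : ∑ W : Finset α, mu q W * ∑ i ∈ s, f i W / c i
      = ∑ i ∈ s, (∑ W : Finset α, mu q W * f i W) / c i := by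
    have : ∀ W : Finset α, mu q W * ∑ i ∈ s, f i W / c i
        = ∑ i ∈ s, mu q W * f i W / c i := by
      intro W
      rw [Finset.mul_sum]
      refine Finset.sum_congr rfl fun i _ => by ring
    rw [Finset.sum_congr rfl fun W _ => this W, Finset.sum_comm]
    refine Finset.sum_congr rfl fun i _ => ?_
    rw [Finset.sum_div]
  obtain ⟨W, hW⟩ := exists_le_of_sum_mu_le h0 h1 (fun W => ∑ i ∈ s, f i W / c i) _ hE.le
  refine ⟨W, fun i hi => ?_⟩
  have hle : f i W / c i ≤ ∑ j ∈ s, f j W / c j :=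
    Finset.single_le_sum (f := fun j => f j W / c j)
      (fun j hj => div_nonneg (hf j hj W) (hc j hj).le) hi
  have hlt : f i W / c i < 1 := lt_of_le_of_lt (hle.trans hW) h
  rwa [div_lt_one (hc i hi)] at hlt

omit [DecidableEq α] in
/-- Two-function form of the averaging lemma with explicit constants. -/
theorem exists_le_two {q : ℝ} (h0 : 0 ≤ q) (h1 : q ≤ 1) (f g : Finset α → ℝ)
    (hf : ∀ W, 0 ≤ f W) (hg : ∀ W, 0 ≤ g W) {a b : ℝ} (ha : 0 < a) (hb : 0 < b)
    (hfa : ∑ W : Finset α, mu q W * f W ≤ a) (hgb : ∑ W : Finset α, mu q W * g W ≤ b) :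
    ∃ W : Finset α, f W < 3 * a ∧ g W < 3 * b := by
  have h := exists_forall_lt_of_sum_lt_one (α := α) h0 h1 (Finset.univ : Finset Bool)
    (fun i => if i then f else g) (fun i => if i then 3 * a else 3 * b)
    (by intro i _ W; cases i <;> simp [hf, hg])
    (by intro i _; cases i <;> simp [ha, hb])
    (by
      simp only [Fintype.sum_bool, if_true, Bool.false_eq_true, if_false]
      have e1 : (∑ W : Finset α, mu q W * f W) / (3 * a) ≤ 1 / 3 := by
        rw [div_le_iff₀ (by positivity)]; linarith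
      have e2 : (∑ W : Finset α, mu q W * g W) / (3 * b) ≤ 1 / 3 := by
        rw [div_le_iff₀ (by positivity)]; linarith
      linarith)
  obtain ⟨W, hW⟩ := h
  exact ⟨W, by simpa using hW true (Finset.mem_univ _), by simpa using hW false (Finset.mem_univ _)⟩

end Crest.Agent.TR
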