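import Mathlib
import Crest.Agent.TR.Engine

/-!
# Row 52 (S0071–S0073) insurance library: the linear (singleton) case

Talagrand's rank rule for a single nonnegative weight `lam : α → ℝ`, in a quantile form that
needs no random set, no dyadic levels and no sorting (board #1893 (1), made discrete).

* `lev lam t = {x : t ≤ lam x}` (level sets; they form a chain).
* `layer_compare`: if `m * |Z ∩ lev lam t| ≤ |lev lam t|` for every `t > 0` then
  `m * lam(Z) ≤ lam(univ)` (discrete layer cake, by induction on the number of positive weights).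
* `rankCover lam m`: all nonempty `T` that lie in a level set of size `< m * |T|`.
* `rankCover_covers`: every `Z` with `lam(univ) < m * lam(Z)` contains a member of `rankCover lam m`.
* `rankCover_cost`: `cost p (rankCover lam m) ≤ 6 m p` when `6 m p ≤ 1`
  (the `k`-sets of the cover lie in ONE level set of size `< m k`; `C(mk,k) ≤ (3m)^k`).
* `linear_rank_cover`, `linear_cover`: the packaged statements; `linear_cover` is the LINEAR FORM
  `cost p G ≤ 12 p lam(univ) / θ` for the family `{Z : θ ≤ lam(Z)}`.

No statement of the row is proved here.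
-/

set_option autoImplicit false

namespace Crest.Agent.TR

open Finset

variable {α : Type*} [Fintype α] [DecidableEq α]

/-- The level set `{x : t ≤ lam x}`. -/
noncomputable def lev (lam : α → ℝ) (t : ℝ) : Finset α :=
  Finset.univ.filter (fun x => t ≤ lam x)

omit [DecidableEq α] in
theorem mem_lev {lam : α → ℝ} {t : ℝ} {x : α} : x ∈ lev lam t ↔ t ≤ lam x := by
  simp [lev]

omit [DecidableEq α] in
theorem lev_anti (lam : α → ℝ) {s t : ℝ} (h : s ≤ t) : lev lam t ⊆ lev lam s := by
  intro x hx
  rw [mem_lev] at hx ⊢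
  exact h.trans hx

/-- Discrete layer cake comparison: if `Z` holds at most a `1/m` share of every level set, then it
holds at most a `1/m` share of the total weight. -/
theorem layer_compare (m : ℕ) (Z : Finset α) :
    ∀ (n : ℕ) (lam : α → ℝ), (∀ x, 0 ≤ lam x) →
      (Finset.univ.filter (fun x => 0 < lam x)).card ≤ n →
      (∀ t : ℝ, 0 < t →
        (m : ℝ) * ((Z ∩ lev lam t).card : ℝ) ≤ ((lev lam t).card : ℝ)) →
      (m : ℝ) * ∑ x ∈ Z, lam x ≤ ∑ x, lam x := by
  intro n
  induction n with
  | zero =>
    intro lam h0 hcard _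
    have hz : ∀ x, lam x = 0 := by
      intro x
      by_contra hx
      have hpos : 0 < lam x := lt_of_le_of_ne (h0 x) (Ne.symm hx)
      have hmem : x ∈ Finset.univ.filter (fun x => 0 < lam x) := by simp [hpos]
      have hc : 0 < (Finset.univ.filter (fun x => 0 < lam x)).card :=
        Finset.card_pos.2 ⟨x, hmem⟩
      omega
    simp [hz]
  | succ n ih =>
    intro lam h0 hcard hlev
    set P := Finset.univ.filter (fun x => 0 < lam x) with hP
    by_cases hPe : P = ∅
    · have hz : ∀ x, lam x = 0 := by
        intro x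
        by_contra hx
        have hpos : 0 < lam x := lt_of_le_of_ne (h0 x) (Ne.symm hx)
        have hmem : x ∈ P := by simp [hP, hpos]
        rw [hPe] at hmem
        simp at hmem
      simp [hz]
    · have hPne : P.Nonempty := Finset.nonempty_iff_ne_empty.2 hPe
      obtain ⟨x0, hx0P, hx0min⟩ := Finset.exists_min_image P lam hPne
      have hv : 0 < lam x0 := by
        have h := hx0P
        simp only [hP, Finset.mem_filter, Finset.mem_univ, true_and] at h
        exact h
      set v := lam x0 with hvdef
      have hmemP : ∀ x, x ∈ P ↔ 0 < lam x := by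
        intro x
        simp [hP]
      let lam' : α → ℝ := fun x => if 0 < lam x then lam x - v else 0
      have hlam'pos : ∀ x, 0 < lam x → lam' x = lam x - v := by
        intro x hx
        simp only [lam', if_pos hx]
      have hlam'neg : ∀ x, ¬ 0 < lam x → lam' x = 0 := by
        intro x hx
        simp only [lam', if_neg hx]
      have h0' : ∀ x, 0 ≤ lam' x := by
        intro x
        by_cases hx : 0 < lam x
        · have h := hx0min x ((hmemP x).2 hx)
          rw [hlam'pos x hx]
          linarith
        · rw [hlam'neg x hx]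
      have hcard' : (Finset.univ.filter (fun x => 0 < lam' x)).card ≤ n := by
        have hsub : Finset.univ.filter (fun x => 0 < lam' x) ⊆ P.erase x0 := by
          intro x hx
          simp only [Finset.mem_filter, Finset.mem_univ, true_and] at hx
          by_cases hxp : 0 < lam x
          · have hne : x ≠ x0 := by
              intro hxx
              rw [hlam'pos x hxp, hxx] at hx
              linarith
            exact Finset.mem_erase.2 ⟨hne, (hmemP x).2 hxp⟩
          · rw [hlam'neg x hxp] at hx
            exact absurd hx (lt_irrefl _)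
        have h1 := Finset.card_le_card hsub
        have h2 := Finset.card_erase_of_mem hx0P
        omega
      have hlevEq : ∀ t : ℝ, 0 < t → lev lam' t = lev lam (t + v) := by
        intro t ht
        ext x
        rw [mem_lev, mem_lev]
        by_cases hxp : 0 < lam x
        · rw [hlam'pos x hxp]
          constructor <;> intro h <;> linarith
        · have hx0 : lam x = 0 := le_antisymm (not_lt.1 hxp) (h0 x)
          rw [hlam'neg x hxp, hx0]
          constructor <;> intro h <;> linarith
      have hlev' : ∀ t : ℝ, 0 < t →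
          (m : ℝ) * ((Z ∩ lev lam' t).card : ℝ) ≤ ((lev lam' t).card : ℝ) := by
        intro t ht
        rw [hlevEq t ht]
        exact hlev (t + v) (by linarith)
      have hIH := ih lam' h0' hcard' hlev'
      have hPlev : lev lam v = P := by
        ext x
        rw [mem_lev, hmemP]
        constructor
        · intro h; linarith
        · intro h; exact hx0min x ((hmemP x).2 h)
      have hdecomp : ∀ x, lam x = lam' x + (if x ∈ P then v else 0) := by
        intro x
        by_cases hxp : 0 < lam x
        · rw [hlam'pos x hxp, if_pos ((hmemP x).2 hxp)]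
          ring
        · have hx0 : lam x = 0 := le_antisymm (not_lt.1 hxp) (h0 x)
          have hnP : x ∉ P := fun h => hxp ((hmemP x).1 h)
          rw [hlam'neg x hxp, if_neg hnP, hx0]
          ring
      have hsumZ : ∑ x ∈ Z, lam x = ∑ x ∈ Z, lam' x + v * ((Z ∩ P).card : ℝ) := by
        rw [Finset.sum_congr rfl (fun x _ => hdecomp x), Finset.sum_add_distrib]
        congr 1
        have hfil : Z.filter (fun x => x ∈ P) = Z ∩ P := by
          ext x
          simp
        rw [← Finset.sum_filter, hfil, Finset.sum_const, nsmul_eq_mul, mul_comm]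
      have hsumX : ∑ x, lam x = ∑ x, lam' x + v * (P.card : ℝ) := by
        rw [Finset.sum_congr rfl (fun x _ => hdecomp x), Finset.sum_add_distrib]
        congr 1
        have hfil : (Finset.univ : Finset α).filter (fun x => x ∈ P) = P := by
          ext x
          simp
        rw [← Finset.sum_filter, hfil, Finset.sum_const, nsmul_eq_mul, mul_comm]
      have hPcond := hlev v hv
      rw [hPlev] at hPcond
      rw [hsumZ, hsumX]
      nlinarith [hIH, hPcond, hv.le, mul_nonneg hv.le (sub_nonneg.2 hPcond)]

open Classical in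
/-- The rank-rule cover: all nonempty `T` contained in a level set of size `< m * |T|`. -/
noncomputable def rankCover (lam : α → ℝ) (m : ℕ) : Finset (Finset α) :=
  Finset.univ.filter (fun T : Finset α =>
    T.Nonempty ∧ ∃ t : ℝ, T ⊆ lev lam t ∧ (lev lam t).card < m * T.card)

open Classical in
omit [DecidableEq α] in
theorem mem_rankCover {lam : α → ℝ} {m : ℕ} {T : Finset α} :
    T ∈ rankCover lam m ↔
      T.Nonempty ∧ ∃ t : ℝ, T ⊆ lev lam t ∧ (lev lam t).card < m * T.card := by
  simp [rankCover]

theorem rankCover_covers (lam : α → ℝ) (h0 : ∀ x, 0 ≤ lam x) (m : ℕ) (Z : Finset α)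
    (hZ : ∑ x, lam x < (m : ℝ) * ∑ x ∈ Z, lam x) : ∃ T ∈ rankCover lam m, T ⊆ Z := by
  by_contra hcon
  have hlev : ∀ t : ℝ, 0 < t →
      (m : ℝ) * ((Z ∩ lev lam t).card : ℝ) ≤ ((lev lam t).card : ℝ) := by
    intro t _
    by_contra hlt0
    have hlt := not_le.1 hlt0
    have hlt' : (lev lam t).card < m * (Z ∩ lev lam t).card := by exact_mod_cast hlt
    have hne : (Z ∩ lev lam t).Nonempty := by
      rw [Finset.nonempty_iff_ne_empty]
      intro he
      rw [he] at hlt'
      simp at hlt'
    have hmem : Z ∩ lev lam t ∈ rankCover lam m :=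
      mem_rankCover.2 ⟨hne, t, Finset.inter_subset_right, hlt'⟩
    exact hcon ⟨_, hmem, Finset.inter_subset_left⟩
  have := layer_compare m Z _ lam h0 le_rfl hlev
  linarith

omit [DecidableEq α] in
theorem rankCover_fiber_card (lam : α → ℝ) (m k : ℕ) :
    ((rankCover lam m).filter (fun T => T.card = k)).card ≤ (m * k).choose k := by
  classical
  set LL : Finset (Finset α) :=
    Finset.univ.filter (fun B => B.card < m * k ∧ ∃ t : ℝ, B = lev lam t) with hLL
  have hmemLL : ∀ t : ℝ, (lev lam t).card < m * k → lev lam t ∈ LL := by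
    intro t ht
    simp only [hLL, Finset.mem_filter, Finset.mem_univ, true_and]
    exact ⟨ht, t, rfl⟩
  by_cases hne : LL.Nonempty
  · obtain ⟨B, hBLL, hBmax⟩ := Finset.exists_max_image LL Finset.card hne
    have hB : B.card < m * k ∧ ∃ t : ℝ, B = lev lam t := by
      simpa [hLL] using hBLL
    obtain ⟨hBcard, s, rfl⟩ := hB
    have hsub : (rankCover lam m).filter (fun T => T.card = k) ⊆
        Finset.powersetCard k (lev lam s) := by
      intro T hT
      rw [Finset.mem_filter, mem_rankCover] at hT
      obtain ⟨⟨_, t, hTt, hlt⟩, hTk⟩ := hT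
      rw [hTk] at hlt
      have hle := hBmax _ (hmemLL t hlt)
      have hts : lev lam t ⊆ lev lam s := by
        rcases le_total s t with hst | hts
        · exact lev_anti lam hst
        · have h1 : lev lam s ⊆ lev lam t := lev_anti lam hts
          have h2 := Finset.eq_of_subset_of_card_le h1 hle
          rw [h2]
      rw [Finset.mem_powersetCard]
      exact ⟨hTt.trans hts, hTk⟩
    calc ((rankCover lam m).filter (fun T => T.card = k)).card
        ≤ (Finset.powersetCard k (lev lam s)).card := Finset.card_le_card hsub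
      _ = (lev lam s).card.choose k := Finset.card_powersetCard _ _
      _ ≤ (m * k).choose k := Nat.choose_le_choose k hBcard.le
  · have hempty : (rankCover lam m).filter (fun T => T.card = k) = ∅ := by
      rw [Finset.eq_empty_iff_forall_notMem]
      intro T hT
      rw [Finset.mem_filter, mem_rankCover] at hT
      obtain ⟨⟨_, t, _, hlt⟩, hTk⟩ := hT
      rw [hTk] at hlt
      exact hne ⟨lev lam t, hmemLL t hlt⟩
    rw [hempty]
    simp

theorem choose_mul_pow_le (m k : ℕ) (p : ℝ) (hp : 0 ≤ p) :
    ((m * k).choose k : ℝ) * p ^ k ≤ (3 * (m : ℝ) * p) ^ k := by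
  have h1 : ((m * k).choose k : ℝ) ≤ (((m * k : ℕ) : ℝ)) ^ k / (k.factorial : ℝ) :=
    Nat.choose_le_pow_div k (m * k)
  have h2 : (k : ℝ) ^ k / (k.factorial : ℝ) ≤ Real.exp k :=
    Real.pow_div_factorial_le_exp (k : ℝ) (Nat.cast_nonneg k) k
  have h3 : Real.exp k ≤ 3 ^ k := by
    have h : Real.exp (k : ℝ) = Real.exp 1 ^ k := by
      rw [← Real.exp_nat_mul, mul_one]
    rw [h]
    exact pow_le_pow_left₀ (Real.exp_pos 1).le Real.exp_one_lt_three.le k
  have hmp : 0 ≤ (m : ℝ) * p := mul_nonneg (Nat.cast_nonneg m) hp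
  calc ((m * k).choose k : ℝ) * p ^ k
      ≤ ((((m * k : ℕ) : ℝ)) ^ k / (k.factorial : ℝ)) * p ^ k :=
        mul_le_mul_of_nonneg_right h1 (pow_nonneg hp k)
    _ = ((m : ℝ) * p) ^ k * ((k : ℝ) ^ k / (k.factorial : ℝ)) := by
        push_cast
        rw [mul_pow, mul_pow]
        ring
    _ ≤ ((m : ℝ) * p) ^ k * 3 ^ k :=
        mul_le_mul_of_nonneg_left (h2.trans h3) (pow_nonneg hmp k)
    _ = (3 * (m : ℝ) * p) ^ k := by
        rw [← mul_pow]
        ring_nf

theorem geom_bound (x : ℝ) (hx0 : 0 ≤ x) (hx : 2 * x ≤ 1) (N : ℕ) :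
    ∑ k ∈ Finset.range N, x ^ (k + 1) ≤ 2 * x - 2 * x ^ (N + 1) := by
  induction N with
  | zero => simp
  | succ N ih =>
    rw [Finset.sum_range_succ]
    have h : 2 * x ^ (N + 1 + 1) ≤ x ^ (N + 1) := by
      have hpow := pow_nonneg hx0 (N + 1)
      calc 2 * x ^ (N + 1 + 1) = (2 * x) * x ^ (N + 1) := by ring
        _ ≤ 1 * x ^ (N + 1) := mul_le_mul_of_nonneg_right hx hpow
        _ = x ^ (N + 1) := one_mul _
    linarith

omit [DecidableEq α] in
theorem rankCover_cost (lam : α → ℝ) (m : ℕ) (p : ℝ) (hp0 : 0 ≤ p)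
    (hp : 6 * (m : ℝ) * p ≤ 1) : cost p (rankCover lam m) ≤ 6 * (m : ℝ) * p := by
  classical
  set N := Fintype.card α with hN
  have hmaps : ∀ T ∈ rankCover lam m, T.card ∈ Finset.range (N + 1) := by
    intro T _
    rw [Finset.mem_range]
    have := Finset.card_le_univ T
    omega
  unfold cost
  rw [← Finset.sum_fiberwise_of_maps_to hmaps]
  have hfib : ∀ k ∈ Finset.range (N + 1),
      ∑ T ∈ (rankCover lam m).filter (fun T => T.card = k), p ^ T.card ≤
        if k = 0 then 0 else (3 * (m : ℝ) * p) ^ k := by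
    intro k _
    by_cases hk : k = 0
    · subst hk
      have hempty : (rankCover lam m).filter (fun T => T.card = 0) = ∅ := by
        rw [Finset.eq_empty_iff_forall_notMem]
        intro T hT
        rw [Finset.mem_filter, mem_rankCover] at hT
        obtain ⟨⟨hTne, _⟩, hT0⟩ := hT
        rw [Finset.card_eq_zero] at hT0
        rw [hT0] at hTne
        simp at hTne
      rw [hempty]
      simp
    · rw [if_neg hk]
      have hconst : ∑ T ∈ (rankCover lam m).filter (fun T => T.card = k), p ^ T.card
          = (((rankCover lam m).filter (fun T => T.card = k)).card : ℝ) * p ^ k := by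
        rw [Finset.sum_congr rfl (fun T hT => by rw [(Finset.mem_filter.1 hT).2]),
          Finset.sum_const, nsmul_eq_mul]
      rw [hconst]
      calc (((rankCover lam m).filter (fun T => T.card = k)).card : ℝ) * p ^ k
          ≤ ((m * k).choose k : ℝ) * p ^ k := by
            apply mul_le_mul_of_nonneg_right _ (pow_nonneg hp0 k)
            exact_mod_cast rankCover_fiber_card lam m k
        _ ≤ (3 * (m : ℝ) * p) ^ k := choose_mul_pow_le m k p hp0
  refine (Finset.sum_le_sum hfib).trans ?_
  rw [Finset.sum_range_succ']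
  have hx0 : 0 ≤ 3 * (m : ℝ) * p := by positivity
  have hg := geom_bound (3 * (m : ℝ) * p) hx0 (by linarith) N
  have hpow : 0 ≤ (3 * (m : ℝ) * p) ^ (N + 1) := pow_nonneg hx0 _
  simp only [Nat.add_one_ne_zero, if_false, if_true, add_zero]
  linarith

/-- **Rank rule (linear case).** For a nonnegative weight `lam`, an integer `m` and a level `p`
with `6 m p ≤ 1`, the sets `Z` carrying more than a `1/m` share of the total weight are covered
by a family of nonempty sets of cost at most `6 m p`. -/
theorem linear_rank_cover (lam : α → ℝ) (h0 : ∀ x, 0 ≤ lam x) (m : ℕ) (p : ℝ) (hp0 : 0 ≤ p)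
    (hp : 6 * (m : ℝ) * p ≤ 1) :
    ∃ G : Finset (Finset α), (∀ T ∈ G, T.Nonempty) ∧
      (∀ Z : Finset α, ∑ x, lam x < (m : ℝ) * ∑ x ∈ Z, lam x → ∃ T ∈ G, T ⊆ Z) ∧
      cost p G ≤ 6 * (m : ℝ) * p :=
  ⟨rankCover lam m, fun _ hT => (mem_rankCover.1 hT).1,
    fun Z hZ => rankCover_covers lam h0 m Z hZ, rankCover_cost lam m p hp0 hp⟩

/-- **Linear case, linear form.** If `12 p lam(univ) ≤ θ` then the family `{Z : θ ≤ lam(Z)}` is
covered by a family of nonempty sets of cost at most `12 p lam(univ) / θ` at level `p`. -/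
theorem linear_cover (lam : α → ℝ) (h0 : ∀ x, 0 ≤ lam x) (θ : ℝ) (hθ : 0 < θ) (p : ℝ)
    (hp0 : 0 ≤ p) (hp : 12 * p * ∑ x, lam x ≤ θ) :
    ∃ G : Finset (Finset α), (∀ T ∈ G, T.Nonempty) ∧
      (∀ Z : Finset α, θ ≤ ∑ x ∈ Z, lam x → ∃ T ∈ G, T ⊆ Z) ∧
      cost p G ≤ 12 * p * (∑ x, lam x) / θ := by
  set Λ := ∑ x, lam x with hΛ
  have hΛ0 : 0 ≤ Λ := Finset.sum_nonneg fun x _ => h0 x
  by_cases hsmall : Λ < θ
  · refine ⟨∅, by simp, ?_, ?_⟩
    · intro Z hZ
      exfalso
      have hle : ∑ x ∈ Z, lam x ≤ Λ :=
        Finset.sum_le_sum_of_subset_of_nonneg (Finset.subset_univ Z) (fun x _ _ => h0 x)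
      linarith
    · have : (0 : ℝ) ≤ 12 * p * Λ / θ := by positivity
      simpa [cost] using this
  · have hsmall := not_lt.1 hsmall
    set m := ⌊Λ / θ⌋₊ + 1 with hm
    have hm1 : Λ / θ < (m : ℝ) := by
      rw [hm]
      push_cast
      exact Nat.lt_floor_add_one _
    have hm2 : (m : ℝ) ≤ Λ / θ + 1 := by
      rw [hm]
      push_cast
      have := Nat.floor_le (div_nonneg hΛ0 hθ.le)
      linarith
    have hge1 : 1 ≤ Λ / θ := by
      rw [le_div_iff₀ hθ]
      linarith
    have hm3 : (m : ℝ) ≤ 2 * (Λ / θ) := by linarith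
    have hpΛ : 12 * p * Λ / θ ≤ 1 := by
      rw [div_le_one hθ]
      exact hp
    have h6 : 6 * (m : ℝ) * p ≤ 12 * p * Λ / θ := by
      have h : 6 * (m : ℝ) * p ≤ 6 * (2 * (Λ / θ)) * p := by
        apply mul_le_mul_of_nonneg_right _ hp0
        linarith
      calc 6 * (m : ℝ) * p ≤ 6 * (2 * (Λ / θ)) * p := h
        _ = 12 * p * Λ / θ := by ring
    obtain ⟨G, hne, hcov, hcost⟩ := linear_rank_cover lam h0 m p hp0 (h6.trans hpΛ)
    refine ⟨G, hne, ?_, hcost.trans h6⟩
    intro Z hZ
    apply hcov
    have hlt : Λ < (m : ℝ) * θ := by rwa [div_lt_iff₀ hθ] at hm1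
    calc Λ < (m : ℝ) * θ := hlt
      _ ≤ (m : ℝ) * ∑ x ∈ Z, lam x := mul_le_mul_of_nonneg_left hZ (Nat.cast_nonneg m)

end Crest.Agent.TR
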