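import Mathlib
import Crest.Agent.TR.Engine

/-!
# Row 52 insurance library: pattern rules on top of the engine

* `mu_pos`, `exists_good_le`: averaging with a bad event
  (`E f + c · P(Bad) ≤ c` ⟹ some good `W` has `f W ≤ c`).
* `sum_mu_mul_sum_powerset_le`: `E_q ∑_{S ⊆ W} g S ≤ (q / r) ∑ g S r^|S|` for `g ∅ = 0`, `q ≤ r`.
* `firstPat`: the first pattern (w.r.t. an injective key) contained in a set, with its
  stability `firstPat Z ⊆ Z' ⊆ Z → firstPat Z' = firstPat Z`.
* `cost_lemma_P`: the probabilistic cost lemma (board #1925): if every member of `F` contains a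
  pattern and `∑_m ((1+β)^m - 1) · mu_q(⟨PAT_m⟩) ≤ β / 4`, then `F` has a cover of cost `≤ β / 3`
  at level `ρ`, `β = ρ (1 - q) / q`.
* `sum_pow_card_filter_lt_le`: `∑_{T ⊆ P, |P| < 2 |T|} β^|T| ≤ 2 β` for `0 ≤ β ≤ 1/4`.
* `threshold_selector`: the threshold selector lemma (board #1882 (UT)): for any list of pairs
  `(C, n)` with `n ≥ 1`, if `mu_q{W : ∃ (C, n), n ≤ 2 |W ∩ C|} ≤ 1/4` then
  `{H : ∃ (C, n), n ≤ |H ∩ C|}` has a cover of cost `≤ 1/2` at every level `ρ` with
  `ρ (1 - q) ≤ q / 8`.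

No statement of the row is proved here.
-/

set_option autoImplicit false

namespace Crest.Agent.TR

open Finset

variable {α : Type*} [Fintype α] [DecidableEq α]

omit [DecidableEq α] in
theorem mu_pos {q : ℝ} (h0 : 0 < q) (h1 : q < 1) (W : Finset α) : 0 < mu q W := by
  unfold mu
  have : 0 < 1 - q := by linarith
  positivity

omit [DecidableEq α] in
/-- Averaging with a bad event: if `E f + c · P(Bad) ≤ c` and some set is good, then some good
set has `f ≤ c`. -/
theorem exists_good_le {q : ℝ} (h0 : 0 < q) (h1 : q < 1) (f : Finset α → ℝ)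
    (hf : ∀ W, 0 ≤ f W) (Bad : Finset α → Prop) [DecidablePred Bad] (W₀ : Finset α)
    (hW₀ : ¬ Bad W₀) {c : ℝ} (_hc : 0 < c)
    (h : ∑ W : Finset α, mu q W * f W
        + c * ∑ W ∈ (Finset.univ : Finset (Finset α)).filter Bad, mu q W ≤ c) :
    ∃ W : Finset α, ¬ Bad W ∧ f W ≤ c := by
  by_contra hcon
  have hcon' : ∀ W : Finset α, ¬ Bad W → c < f W := fun W hW =>
    not_le.1 fun hle => hcon ⟨W, hW, hle⟩
  have hrew : ∑ W : Finset α, mu q W * f W
        + c * ∑ W ∈ (Finset.univ : Finset (Finset α)).filter Bad, mu q W - c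
      = ∑ W : Finset α, mu q W * (f W + (if Bad W then c else 0) - c) := by
    have e1 : c * ∑ W ∈ (Finset.univ : Finset (Finset α)).filter Bad, mu q W
        = ∑ W : Finset α, mu q W * (if Bad W then c else 0) := by
      rw [Finset.mul_sum, Finset.sum_filter]
      refine Finset.sum_congr rfl fun W _ => ?_
      split_ifs <;> ring
    have e2 : c = ∑ W : Finset α, mu q W * c := by
      rw [← Finset.sum_mul, sum_mu, one_mul]
    rw [e1]
    nth_rewrite 2 [e2]
    rw [← Finset.sum_add_distrib, ← Finset.sum_sub_distrib]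
    refine Finset.sum_congr rfl fun W _ => by ring
  have hpos : 0 < ∑ W : Finset α, mu q W * (f W + (if Bad W then c else 0) - c) := by
    refine Finset.sum_pos' (fun W _ => mul_nonneg (mu_pos h0 h1 W).le ?_)
      ⟨W₀, Finset.mem_univ _, mul_pos (mu_pos h0 h1 W₀) ?_⟩
    · by_cases hB : Bad W
      · simp only [hB, if_true]; linarith [hf W]
      · simp only [hB, if_false]; linarith [hcon' W hB]
    · simp only [hW₀, if_false]; linarith [hcon' W₀ hW₀]
  linarith

/-- First-moment bound for a fractional cover without weight on the empty set. -/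
theorem sum_mu_mul_sum_powerset_le {q r : ℝ} (hq : 0 ≤ q) (hqr : q ≤ r) (hr : 0 < r)
    (g : Finset α → ℝ) (hg : ∀ S, 0 ≤ g S) (hg0 : g ∅ = 0) :
    ∑ W : Finset α, mu q W * ∑ S ∈ W.powerset, g S
      ≤ q / r * ∑ S : Finset α, g S * r ^ S.card := by
  rw [sum_mu_mul_sum_powerset, Finset.mul_sum]
  refine Finset.sum_le_sum fun S _ => ?_
  rcases Finset.eq_empty_or_nonempty S with rfl | hS
  · simp [hg0]
  · obtain ⟨k, hk⟩ : ∃ k, S.card = k + 1 :=
      ⟨S.card - 1, by have := Finset.card_pos.2 hS; omega⟩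
    rw [hk, pow_succ, pow_succ]
    have h1 : q ^ k ≤ r ^ k := pow_le_pow_left₀ hq hqr k
    have h2 : q / r * (g S * (r ^ k * r)) = g S * (r ^ k * q) := by
      field_simp
    rw [h2]
    exact mul_le_mul_of_nonneg_left (mul_le_mul_of_nonneg_right h1 hq) (hg S)

/-- The first pattern of `PAT` (with respect to the key `κ`) contained in `Z`; `∅` if none. -/
noncomputable def firstPat (PAT : Finset (Finset α)) (κ : Finset α → ℕ) (Z : Finset α) :
    Finset α :=
  if h : (PAT.filter (fun P => P ⊆ Z)).Nonempty then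
    Classical.choose (Finset.exists_min_image (PAT.filter (fun P => P ⊆ Z)) κ h)
  else ∅

omit [Fintype α] in
theorem firstPat_spec (PAT : Finset (Finset α)) (κ : Finset α → ℕ) (Z : Finset α)
    (h : ∃ P ∈ PAT, P ⊆ Z) :
    firstPat PAT κ Z ∈ PAT ∧ firstPat PAT κ Z ⊆ Z ∧
      ∀ P ∈ PAT, P ⊆ Z → κ (firstPat PAT κ Z) ≤ κ P := by
  have hne : (PAT.filter (fun P => P ⊆ Z)).Nonempty := by
    obtain ⟨P, hP, hPZ⟩ := h
    exact ⟨P, Finset.mem_filter.2 ⟨hP, hPZ⟩⟩
  have hspec := Classical.choose_spec (Finset.exists_min_image (PAT.filter (fun P => P ⊆ Z)) κ hne)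
  unfold firstPat
  rw [dif_pos hne]
  refine ⟨(Finset.mem_filter.1 hspec.1).1, (Finset.mem_filter.1 hspec.1).2, fun P hP hPZ => ?_⟩
  exact hspec.2 P (Finset.mem_filter.2 ⟨hP, hPZ⟩)

omit [Fintype α] in
theorem firstPat_of_not (PAT : Finset (Finset α)) (κ : Finset α → ℕ) (Z : Finset α)
    (h : ¬ ∃ P ∈ PAT, P ⊆ Z) : firstPat PAT κ Z = ∅ := by
  have hne : ¬ (PAT.filter (fun P => P ⊆ Z)).Nonempty := by
    rintro ⟨P, hP⟩
    exact h ⟨P, (Finset.mem_filter.1 hP).1, (Finset.mem_filter.1 hP).2⟩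
  unfold firstPat
  rw [dif_neg hne]

omit [Fintype α] in
/-- Stability of the first-pattern rule. -/
theorem firstPat_stable (PAT : Finset (Finset α)) (κ : Finset α → ℕ)
    (hκ : Set.InjOn κ (PAT : Set (Finset α))) {Z Z' : Finset α} (h : ∃ P ∈ PAT, P ⊆ Z)
    (h1 : firstPat PAT κ Z ⊆ Z') (h2 : Z' ⊆ Z) : firstPat PAT κ Z' = firstPat PAT κ Z := by
  obtain ⟨hmem, _, hmin⟩ := firstPat_spec PAT κ Z h
  have h' : ∃ P ∈ PAT, P ⊆ Z' := ⟨_, hmem, h1⟩
  obtain ⟨hmem', hsub', hmin'⟩ := firstPat_spec PAT κ Z' h'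
  have e1 : κ (firstPat PAT κ Z) ≤ κ (firstPat PAT κ Z') := hmin _ hmem' (hsub'.trans h2)
  have e2 : κ (firstPat PAT κ Z') ≤ κ (firstPat PAT κ Z) := hmin' _ hmem h1
  exact hκ hmem' hmem (le_antisymm e2 e1)

/-- **Probabilistic cost lemma** (board #1925 (P)). -/
theorem cost_lemma_P {q ρ : ℝ} (hq0 : 0 < q) (hq1 : q < 1) (hρ : 0 < ρ)
    (F PAT : Finset (Finset α)) (hne : ∀ P ∈ PAT, P.Nonempty)
    (hcov : ∀ S ∈ F, ∃ P ∈ PAT, P ⊆ S)
    (hε : ∑ m ∈ Finset.Icc 1 (Fintype.card α), ((1 + ρ * (1 - q) / q) ^ m - 1) *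
        (∑ Z ∈ (Finset.univ : Finset (Finset α)).filter
          (fun Z => ∃ P ∈ PAT, P.card = m ∧ P ⊆ Z), mu q Z) ≤ ρ * (1 - q) / q / 4) :
    ∃ G : Finset (Finset α), Covers G F ∧ cost ρ G ≤ ρ * (1 - q) / q / 3 := by
  classical
  set β : ℝ := ρ * (1 - q) / q with hβ
  have h1q : 0 < 1 - q := by linarith
  have hβ0 : 0 < β := by positivity
  -- an injective key
  let κ : Finset α → ℕ := fun P => (Fintype.equivFin (Finset α) P : ℕ)
  have hκ : Set.InjOn κ (PAT : Set (Finset α)) := by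
    intro P _ P' _ hPP'
    have : Fintype.equivFin (Finset α) P = Fintype.equivFin (Finset α) P' := Fin.ext hPP'
    exact (Fintype.equivFin (Finset α)).injective this
  let Qs : Finset α → Finset α := firstPat PAT κ
  let Bad : Finset α → Prop := fun W => ∃ P ∈ PAT, P ⊆ W
  let G : Finset α → Finset (Finset α) := fun W =>
    if Bad W then ∅ else F.image (fun S => Qs (W ∪ S) \ W)
  have hG : ∀ W, ∀ T ∈ G W, Disjoint W T ∧ T.Nonempty ∧ T ⊆ Qs (W ∪ T) := by
    intro W T hT
    by_cases hB : Bad W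
    · simp only [G, hB, if_true, Finset.notMem_empty] at hT
    · simp only [G, hB, if_false, Finset.mem_image] at hT
      obtain ⟨S, hS, rfl⟩ := hT
      have hex : ∃ P ∈ PAT, P ⊆ W ∪ S := by
        obtain ⟨P, hP, hPS⟩ := hcov S hS
        exact ⟨P, hP, hPS.trans Finset.subset_union_right⟩
      obtain ⟨hmem, hsub, _⟩ := firstPat_spec PAT κ (W ∪ S) hex
      refine ⟨Finset.disjoint_sdiff, ?_, ?_⟩
      · rw [Finset.nonempty_iff_ne_empty]
        intro hemp
        exact hB ⟨_, hmem, Finset.sdiff_eq_empty_iff_subset.1 hemp⟩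
      · have hst : firstPat PAT κ (W ∪ Qs (W ∪ S) \ W) = firstPat PAT κ (W ∪ S) := by
          refine firstPat_stable PAT κ hκ hex ?_ ?_
          · intro x hx
            by_cases hxW : x ∈ W
            · exact Finset.mem_union_left _ hxW
            · exact Finset.mem_union_right _ (Finset.mem_sdiff.2 ⟨hx, hxW⟩)
          · intro x hx
            rcases Finset.mem_union.1 hx with hxW | hxT
            · exact Finset.mem_union_left _ hxW
            · exact hsub (Finset.mem_sdiff.1 hxT).1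
        show Qs (W ∪ S) \ W ⊆ firstPat PAT κ (W ∪ Qs (W ∪ S) \ W)
        rw [hst]
        exact Finset.sdiff_subset
  have hE := engine_powerset hq0 hq1.le hρ.le G Qs hG
  -- pointwise bound of `(1+β)^|Qs Z| - 1` by the sum over pattern sizes
  have hpt : ∀ Z : Finset α, (1 + β) ^ (Qs Z).card - 1 ≤
      ∑ m ∈ Finset.Icc 1 (Fintype.card α), ((1 + β) ^ m - 1) *
        (if ∃ P ∈ PAT, P.card = m ∧ P ⊆ Z then (1 : ℝ) else 0) := by
    intro Z
    have hterm : ∀ m ∈ Finset.Icc 1 (Fintype.card α), 0 ≤ ((1 + β) ^ m - 1) *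
        (if ∃ P ∈ PAT, P.card = m ∧ P ⊆ Z then (1 : ℝ) else 0) := by
      intro m _
      have : (1 : ℝ) ≤ (1 + β) ^ m := one_le_pow₀ (by linarith)
      split_ifs
      · linarith
      · simp
    by_cases hZ : ∃ P ∈ PAT, P ⊆ Z
    · obtain ⟨hmem, hsub, _⟩ := firstPat_spec PAT κ Z hZ
      have hm : (Qs Z).card ∈ Finset.Icc 1 (Fintype.card α) :=
        Finset.mem_Icc.2 ⟨Finset.card_pos.2 (hne _ hmem), Finset.card_le_univ _⟩
      have hsingle := Finset.single_le_sum hterm hm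
      have hif : (∃ P ∈ PAT, P.card = (Qs Z).card ∧ P ⊆ Z) := ⟨_, hmem, rfl, hsub⟩
      rw [if_pos hif, mul_one] at hsingle
      exact hsingle
    · have : Qs Z = ∅ := firstPat_of_not PAT κ Z hZ
      rw [this, Finset.card_empty, pow_zero, sub_self]
      exact Finset.sum_nonneg hterm
  have hR : ∑ Z : Finset α, mu q Z * ((1 + β) ^ (Qs Z).card - 1) ≤ β / 4 := by
    refine le_trans ?_ hε
    calc ∑ Z : Finset α, mu q Z * ((1 + β) ^ (Qs Z).card - 1)
        ≤ ∑ Z : Finset α, mu q Z * ∑ m ∈ Finset.Icc 1 (Fintype.card α), ((1 + β) ^ m - 1) *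
            (if ∃ P ∈ PAT, P.card = m ∧ P ⊆ Z then (1 : ℝ) else 0) :=
          Finset.sum_le_sum fun Z _ => mul_le_mul_of_nonneg_left (hpt Z) (mu_pos hq0 hq1 Z).le
      _ = ∑ m ∈ Finset.Icc 1 (Fintype.card α), ((1 + β) ^ m - 1) *
            (∑ Z ∈ (Finset.univ : Finset (Finset α)).filter
              (fun Z => ∃ P ∈ PAT, P.card = m ∧ P ⊆ Z), mu q Z) := by
          simp_rw [Finset.mul_sum]
          rw [Finset.sum_comm]
          refine Finset.sum_congr rfl fun m _ => ?_
          rw [Finset.sum_filter]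
          refine Finset.sum_congr rfl fun Z _ => ?_
          split_ifs <;> ring
  -- probability of the bad event
  have hBad : ∑ W ∈ (Finset.univ : Finset (Finset α)).filter Bad, mu q W ≤ β / 4 / β := by
    rw [le_div_iff₀ hβ0]
    refine le_trans ?_ hR
    rw [Finset.sum_mul, Finset.sum_filter]
    refine Finset.sum_le_sum fun W _ => ?_
    by_cases hB : Bad W
    · rw [if_pos hB]
      obtain ⟨hmem, _, _⟩ := firstPat_spec PAT κ W hB
      have hpos : 1 ≤ (Qs W).card := Finset.card_pos.2 (hne _ hmem)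
      have h1 : (1 + β) ^ 1 ≤ (1 + β) ^ (Qs W).card :=
        pow_le_pow_right₀ (by linarith) hpos
      rw [pow_one] at h1
      exact mul_le_mul_of_nonneg_left (by linarith) (mu_pos hq0 hq1 W).le
    · rw [if_neg hB]
      have : (1 : ℝ) ≤ (1 + β) ^ (Qs W).card := one_le_pow₀ (by linarith)
      exact mul_nonneg (mu_pos hq0 hq1 W).le (by linarith)
  have hB0 : ¬ Bad (∅ : Finset α) := by
    rintro ⟨P, hP, hPe⟩
    have := hne P hP
    rw [Finset.subset_empty.1 hPe] at this
    exact Finset.not_nonempty_empty this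
  have hc : (0 : ℝ) < β / 3 := by positivity
  have hsum : ∑ W : Finset α, mu q W * cost ρ (G W)
      + β / 3 * ∑ W ∈ (Finset.univ : Finset (Finset α)).filter Bad, mu q W ≤ β / 3 := by
    have h1 : ∑ W : Finset α, mu q W * cost ρ (G W) ≤ β / 4 := hE.trans hR
    have h2 : β / 3 * ∑ W ∈ (Finset.univ : Finset (Finset α)).filter Bad, mu q W
        ≤ β / 3 * (β / 4 / β) := mul_le_mul_of_nonneg_left hBad hc.le
    have h3 : β / 3 * (β / 4 / β) = β / 12 := by field_simp; ring
    linarith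
  obtain ⟨W, hW, hcost⟩ := exists_good_le hq0 hq1 (fun W => cost ρ (G W))
    (fun W => cost_nonneg hρ.le _) Bad ∅ hB0 hc hsum
  refine ⟨G W, ?_, hcost⟩
  intro S hS
  refine ⟨Qs (W ∪ S) \ W, ?_, ?_⟩
  · simp only [G, hW, if_false]
    exact Finset.mem_image_of_mem _ hS
  · have hex : ∃ P ∈ PAT, P ⊆ W ∪ S := by
      obtain ⟨P, hP, hPS⟩ := hcov S hS
      exact ⟨P, hP, hPS.trans Finset.subset_union_right⟩
    obtain ⟨_, hsub, _⟩ := firstPat_spec PAT κ (W ∪ S) hex
    intro x hx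
    obtain ⟨hx1, hx2⟩ := Finset.mem_sdiff.1 hx
    rcases Finset.mem_union.1 (hsub hx1) with h | h
    · exact absurd h hx2
    · exact h

omit [Fintype α] [DecidableEq α] in
/-- The `β`-weight of the subsets of `P` that contain more than half of `P`. -/
theorem sum_pow_card_filter_lt_le {β : ℝ} (hβ0 : 0 ≤ β) (hβ1 : β ≤ 1 / 4) (P : Finset α) :
    ∑ T ∈ P.powerset.filter (fun T => P.card < 2 * T.card), β ^ T.card ≤ 2 * β := by
  classical
  set m := P.card with hm
  have hterm : ∀ T ∈ P.powerset.filter (fun T => P.card < 2 * T.card),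
      β ^ T.card ≤ β ^ (m / 2 + 1) := by
    intro T hT
    have hlt : m < 2 * T.card := (Finset.mem_filter.1 hT).2
    exact pow_le_pow_of_le_one hβ0 (by linarith) (by omega)
  have hcount : ((P.powerset.filter (fun T => P.card < 2 * T.card)).card : ℝ) ≤ 2 * 4 ^ (m / 2) := by
    have h1 : (P.powerset.filter (fun T => P.card < 2 * T.card)).card ≤ 2 ^ m := by
      refine (Finset.card_filter_le _ _).trans ?_
      rw [Finset.card_powerset]
    have h2 : 2 ^ m ≤ 2 * 4 ^ (m / 2) := by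
      have h4 : (4 : ℕ) ^ (m / 2) = 2 ^ (2 * (m / 2)) := by
        rw [pow_mul]; norm_num
      rw [h4, ← pow_succ']
      exact Nat.pow_le_pow_right (by norm_num) (by omega)
    exact_mod_cast h1.trans h2
  calc ∑ T ∈ P.powerset.filter (fun T => P.card < 2 * T.card), β ^ T.card
      ≤ ∑ _T ∈ P.powerset.filter (fun T => P.card < 2 * T.card), β ^ (m / 2 + 1) :=
        Finset.sum_le_sum hterm
    _ = ((P.powerset.filter (fun T => P.card < 2 * T.card)).card : ℝ) * β ^ (m / 2 + 1) := by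
        rw [Finset.sum_const, nsmul_eq_mul]
    _ ≤ 2 * 4 ^ (m / 2) * β ^ (m / 2 + 1) :=
        mul_le_mul_of_nonneg_right hcount (pow_nonneg hβ0 _)
    _ = 2 * β * (4 * β) ^ (m / 2) := by rw [pow_succ, mul_pow]; ring
    _ ≤ 2 * β * 1 := by
        refine mul_le_mul_of_nonneg_left ?_ (by linarith)
        exact pow_le_one₀ (by linarith) (by linarith)
    _ = 2 * β := mul_one _

/-- **Threshold selector lemma** (board #1882 (UT)). For any list of pairs `(C, n)`, `n ≥ 1`:
if the sets containing at least `n/2` points of some `C` have `mu q`-measure at most `1/4`,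
then the sets containing at least `n` points of some `C` have a cover of cost at most `1/2` at
every level `ρ` with `ρ (1 - q) ≤ q / 8` (e.g. `ρ = q / 8`). -/
theorem threshold_selector (pairs : List (Finset α × ℕ)) (hn : ∀ c ∈ pairs, 1 ≤ c.2)
    {q ρ : ℝ} (hq0 : 0 < q) (hq1 : q < 1) (hρ0 : 0 ≤ ρ) (hρ : ρ * (1 - q) ≤ q / 8)
    (hhalf : ∑ W ∈ (Finset.univ : Finset (Finset α)).filter
        (fun W => ∃ c ∈ pairs, c.2 ≤ 2 * (W ∩ c.1).card), mu q W ≤ 1 / 4) :
    ∃ G : Finset (Finset α),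
      (∀ H : Finset α, (∃ c ∈ pairs, c.2 ≤ (H ∩ c.1).card) → ∃ S ∈ G, S ⊆ H) ∧
      cost ρ G ≤ 1 / 2 := by
  classical
  set β : ℝ := ρ * (1 - q) / q with hβ
  have h1q : 0 < 1 - q := by linarith
  have hβ0 : 0 ≤ β := by positivity
  have hβ1 : β ≤ 1 / 8 := by
    rw [hβ, div_le_iff₀ hq0]; linarith
  -- the first admissible pair of a set and the canonical set `Q*`
  let adm : Finset α → Finset α × ℕ → Bool := fun Z c => decide (c.2 ≤ (Z ∩ c.1).card)
  let Qs : Finset α → Finset α := fun Z =>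
    match pairs.find? (adm Z) with
    | some c => Z ∩ c.1
    | none => ∅
  let Bad : Finset α → Prop := fun W => ∃ c ∈ pairs, c.2 ≤ 2 * (W ∩ c.1).card
  let A1 : Finset (Finset α) :=
    (Finset.univ : Finset (Finset α)).filter (fun H => ∃ c ∈ pairs, c.2 ≤ (H ∩ c.1).card)
  let G : Finset α → Finset (Finset α) := fun W =>
    if Bad W then ∅ else A1.image (fun H => Qs (W ∪ H) \ W)
  let A : Finset α → Finset (Finset α) := fun Z =>
    (Qs Z).powerset.filter (fun T => (Qs Z).card < 2 * T.card)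
  -- key facts about a good `W` and a member `H`
  have key : ∀ W H : Finset α, ¬ Bad W → (∃ c ∈ pairs, c.2 ≤ (H ∩ c.1).card) →
      Qs (W ∪ H) \ W ⊆ H ∧ Qs (W ∪ (Qs (W ∪ H) \ W)) = Qs (W ∪ H) ∧
        (Qs (W ∪ H)).card < 2 * (Qs (W ∪ H) \ W).card := by
    intro W H hW hH
    obtain ⟨c₀, hc₀, hc₀H⟩ := hH
    have hadm₀ : adm (W ∪ H) c₀ = true := by
      simp only [adm, decide_eq_true_eq]
      exact hc₀H.trans (Finset.card_le_card
        (Finset.inter_subset_inter_right Finset.subset_union_right))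
    obtain ⟨c, hfind⟩ : ∃ c, pairs.find? (adm (W ∪ H)) = some c := by
      cases hf : pairs.find? (adm (W ∪ H)) with
      | some c => exact ⟨c, rfl⟩
      | none =>
        rw [List.find?_eq_none] at hf
        exact absurd hadm₀ (hf c₀ hc₀)
    have hQ : Qs (W ∪ H) = (W ∪ H) ∩ c.1 := by
      simp only [Qs, hfind]
    obtain ⟨hadm, as, bs, hlist, has⟩ := List.find?_eq_some_iff_append.1 hfind
    have hcmem : c ∈ pairs := by rw [hlist]; simp
    have hcn : c.2 ≤ ((W ∪ H) ∩ c.1).card := by simpa [adm] using hadm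
    set T := Qs (W ∪ H) \ W with hT
    have hTsub : T ⊆ H := by
      intro x hx
      obtain ⟨hx1, hx2⟩ := Finset.mem_sdiff.1 hx
      rw [hQ] at hx1
      rcases Finset.mem_union.1 (Finset.mem_inter.1 hx1).1 with h | h
      · exact absurd h hx2
      · exact h
    -- the trace of `W ∪ T` on `c.1` is the trace of `W ∪ H`
    have htrace : (W ∪ T) ∩ c.1 = (W ∪ H) ∩ c.1 := by
      ext x
      simp only [hT, hQ, Finset.mem_inter, Finset.mem_union, Finset.mem_sdiff]
      constructor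
      · rintro ⟨h | h, hc⟩
        · exact ⟨Or.inl h, hc⟩
        · exact ⟨h.1.1, hc⟩
      · rintro ⟨h, hc⟩
        by_cases hxW : x ∈ W
        · exact ⟨Or.inl hxW, hc⟩
        · exact ⟨Or.inr ⟨⟨h, hc⟩, hxW⟩, hc⟩
    have hsubZ : W ∪ T ⊆ W ∪ H := Finset.union_subset_union_right hTsub
    have hfind' : pairs.find? (adm (W ∪ T)) = some c := by
      rw [List.find?_eq_some_iff_append]
      refine ⟨?_, as, bs, hlist, ?_⟩
      · simp only [adm, decide_eq_true_eq, htrace]; exact hcn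
      · intro a ha
        have hna := has a ha
        simp only [adm, Bool.not_eq_eq_eq_not, Bool.not_true, decide_eq_false_iff_not,
          not_le] at hna ⊢
        exact lt_of_le_of_lt (Finset.card_le_card (Finset.inter_subset_inter_right hsubZ)) hna
    have hQ' : Qs (W ∪ T) = (W ∪ T) ∩ c.1 := by
      simp only [Qs, hfind']
    refine ⟨hTsub, ?_, ?_⟩
    · rw [hQ', htrace, hQ]
    · -- `|T| = |Q| - |W ∩ c.1|` and `2 |W ∩ c.1| < c.2 ≤ |Q|`
      have hWc : 2 * (W ∩ c.1).card < c.2 := by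
        by_contra hcon
        exact hW ⟨c, hcmem, not_lt.1 hcon⟩
      have hsplit : (Qs (W ∪ H)).card = (Qs (W ∪ H) \ W).card + (Qs (W ∪ H) ∩ W).card := by
        rw [← Finset.card_sdiff_add_card_inter]
      have hinter : Qs (W ∪ H) ∩ W = W ∩ c.1 := by
        ext x
        simp only [hQ, Finset.mem_inter, Finset.mem_union]
        constructor
        · rintro ⟨⟨_, hc⟩, hxW⟩; exact ⟨hxW, hc⟩
        · rintro ⟨hxW, hc⟩; exact ⟨⟨Or.inl hxW, hc⟩, hxW⟩
      rw [hinter] at hsplit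
      have hcn' : c.2 ≤ (Qs (W ∪ H)).card := by rw [hQ]; exact hcn
      rw [hT]
      omega
  have hGA : ∀ W, ∀ T ∈ G W, Disjoint W T ∧ T ∈ A (W ∪ T) := by
    intro W T hT
    by_cases hB : Bad W
    · simp only [G, hB, if_true, Finset.notMem_empty] at hT
    · simp only [G, hB, if_false, Finset.mem_image] at hT
      obtain ⟨H, hH, rfl⟩ := hT
      have hH' : ∃ c ∈ pairs, c.2 ≤ (H ∩ c.1).card := (Finset.mem_filter.1 hH).2
      obtain ⟨_, hst, hcard⟩ := key W H hB hH'
      refine ⟨Finset.disjoint_sdiff, ?_⟩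
      simp only [A, Finset.mem_filter, Finset.mem_powerset]
      rw [hst]
      exact ⟨Finset.sdiff_subset, hcard⟩
  have hE := engine hq0 hq1.le hρ0 G A hGA
  have hR : ∑ Z : Finset α, mu q Z * ∑ T ∈ A Z, β ^ T.card ≤ 2 * β := by
    calc ∑ Z : Finset α, mu q Z * ∑ T ∈ A Z, β ^ T.card
        ≤ ∑ Z : Finset α, mu q Z * (2 * β) :=
          Finset.sum_le_sum fun Z _ => mul_le_mul_of_nonneg_left
            (sum_pow_card_filter_lt_le hβ0 (by linarith) (Qs Z)) (mu_pos hq0 hq1 Z).le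
      _ = 2 * β := by rw [← Finset.sum_mul, sum_mu, one_mul]
  have hB0 : ¬ Bad (∅ : Finset α) := by
    rintro ⟨c, hc, hle⟩
    have := hn c hc
    simp at hle
    omega
  have hsum : ∑ W : Finset α, mu q W * cost ρ (G W)
      + 1 / 2 * ∑ W ∈ (Finset.univ : Finset (Finset α)).filter Bad, mu q W ≤ 1 / 2 := by
    have h1 : ∑ W : Finset α, mu q W * cost ρ (G W) ≤ 2 * β := hE.trans hR
    have h2 : ∑ W ∈ (Finset.univ : Finset (Finset α)).filter Bad, mu q W ≤ 1 / 4 := hhalf
    linarith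
  obtain ⟨W, hW, hcost⟩ := exists_good_le hq0 hq1 (fun W => cost ρ (G W))
    (fun W => cost_nonneg hρ0 _) Bad ∅ hB0 (by norm_num : (0 : ℝ) < 1 / 2) hsum
  refine ⟨G W, ?_, hcost⟩
  intro H hH
  refine ⟨Qs (W ∪ H) \ W, ?_, (key W H hW hH).1⟩
  simp only [G, hW, if_false]
  exact Finset.mem_image_of_mem _ (Finset.mem_filter.2 ⟨Finset.mem_univ _, hH⟩)

end Crest.Agent.TR
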