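/-
Row 52 insurance library (helper96): END WRAPPER for S0071.

`Core c0 K0` is the "rounding core" in the normalised shape every paper proof in the cell
produces: weights `g ≥ 0` with `g ∅ = 0`, a level `r ∈ (0,1]`, fractional cost `≤ c0` at `r`
⟹ the up-set `{H : ∑_{S ⊆ H} g S ≥ 1}` has an integral cover of cost `≤ 1/2` at `r / K0`.

`s0071_of_core` turns any proof of `Core c0 K0` with `0 < c0 ≤ 1/2`, `0 < K0 ≤ 2·c0·25·512^4`
into the frozen S0071 statement (verbatim hypotheses and conclusion).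
Helper module only; no statement file.
-/
import Mathlib

set_option autoImplicit false

namespace Crest.Agent.TR

open Finset

/-- The normalised rounding core: a fractional cover with `g ∅ = 0` of cost at most `c0` at a
level `r ∈ (0, 1]` can be rounded to an integral cover of cost at most `1/2` at `r / K0`. -/
def Core (c0 K0 : ℝ) : Prop :=
  ∀ (α : Type) [Fintype α] [DecidableEq α] (g : Finset α → ℝ) (r : ℝ),
    (∀ S, 0 ≤ g S) → g ∅ = 0 → 0 < r → r ≤ 1 →
    (∑ S : Finset α, g S * r ^ S.card) ≤ c0 →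
    ∃ G : Finset (Finset α),
      (∀ H : Finset α, 1 ≤ ∑ S ∈ H.powerset, g S → ∃ S ∈ G, S ⊆ H) ∧
      ∑ S ∈ G, (r / K0) ^ S.card ≤ 1 / 2

/-- The core is monotone: a smaller budget and a larger loss constant are weaker. -/
theorem Core.mono {c0 K0 c1 K1 : ℝ} (h : Core c0 K0) (hc : c1 ≤ c0) (hK0 : 0 < K0)
    (hK : K0 ≤ K1) : Core c1 K1 := by
  intro α _ _ g r hg hg0 hr0 hr1 hcost
  obtain ⟨G, hcov, hG⟩ := h α g r hg hg0 hr0 hr1 (hcost.trans hc)
  refine ⟨G, hcov, le_trans (Finset.sum_le_sum fun S _ => ?_) hG⟩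
  have hK1 : 0 < K1 := lt_of_lt_of_le hK0 hK
  exact pow_le_pow_left₀ (div_nonneg hr0.le hK1.le)
    (div_le_div_of_nonneg_left hr0.le hK0 hK) _

/-- Family-shaped core: the cover is only required on an explicit up-set `F` (with `∅ ∉ F`)
on which the weights are a fractional cover.  Equivalent to `Core` (`Core.of_coreF`,
`CoreF.of_core`); use whichever shape the paper proof produces. -/
def CoreF (c0 K0 : ℝ) : Prop :=
  ∀ (α : Type) [Fintype α] [DecidableEq α] (F : Finset (Finset α)) (g : Finset α → ℝ) (r : ℝ),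
    (∀ A ∈ F, ∀ B : Finset α, A ⊆ B → B ∈ F) → ∅ ∉ F →
    (∀ S, 0 ≤ g S) → g ∅ = 0 → 0 < r → r ≤ 1 →
    (∀ H ∈ F, 1 ≤ ∑ S ∈ H.powerset, g S) →
    (∑ S : Finset α, g S * r ^ S.card) ≤ c0 →
    ∃ G : Finset (Finset α),
      (∀ H ∈ F, ∃ S ∈ G, S ⊆ H) ∧ ∑ S ∈ G, (r / K0) ^ S.card ≤ 1 / 2

theorem Core.of_coreF {c0 K0 : ℝ} (h : CoreF c0 K0) : Core c0 K0 := by
  intro α _ _ g r hg hg0 hr0 hr1 hcost
  classical
  obtain ⟨G, hcov, hG⟩ := h α
    (Finset.univ.filter fun H : Finset α => 1 ≤ ∑ S ∈ H.powerset, g S) g r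
    (by
      intro A hA B hAB
      rw [Finset.mem_filter] at hA ⊢
      refine ⟨Finset.mem_univ _, hA.2.trans ?_⟩
      exact Finset.sum_le_sum_of_subset_of_nonneg (Finset.powerset_mono.mpr hAB)
        fun S _ _ => hg S)
    (by
      intro h0
      rw [Finset.mem_filter] at h0
      have := h0.2
      simp [hg0] at this
      linarith)
    hg hg0 hr0 hr1
    (by
      intro H hH
      exact (Finset.mem_filter.mp hH).2)
    hcost
  exact ⟨G, fun H hH => hcov H (Finset.mem_filter.mpr ⟨Finset.mem_univ _, hH⟩), hG⟩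

theorem CoreF.of_core {c0 K0 : ℝ} (h : Core c0 K0) : CoreF c0 K0 := by
  intro α _ _ F g r _ _ hg hg0 hr0 hr1 hcovF hcost
  obtain ⟨G, hcov, hG⟩ := h α g r hg hg0 hr0 hr1 hcost
  exact ⟨G, fun H hH => hcov H (hcovF H hH), hG⟩

/-- END WRAPPER: the frozen statement S0071 from the normalised core. -/
theorem s0071_of_core (c0 K0 : ℝ) (hc0 : 0 < c0) (hc0' : c0 ≤ 1 / 2) (hK0 : 0 < K0)
    (hK : K0 ≤ 2 * c0 * (25 * 512 ^ 4)) (h : Core c0 K0)
    (α : Type) [Fintype α]
    [DecidableEq α] [Nonempty α] (F : Finset (Finset α)) (_hne : F.Nonempty) (hempty : ∅ ∉ F)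
    (_hup : ∀ A ∈ F, ∀ B : Finset α, A ⊆ B → B ∈ F) (r : ℝ) (hr0 : 0 ≤ r) (hr1 : r ≤ 1)
    (g : Finset α → ℝ) (hg : ∀ S : Finset α, 0 ≤ g S ∧ g S ≤ 1)
    (hcov : ∀ H ∈ F, 1 ≤ ∑ S ∈ H.powerset, g S)
    (hcost : ∑ S : Finset α, g S * r ^ S.card ≤ 1 / 2) :
    ∃ G : Finset (Finset α), (∀ H ∈ F, ∃ S ∈ G, S ⊆ H) ∧
      ∑ S ∈ G, (r / (25 * 512 ^ 4)) ^ S.card ≤ 1 / 2 := by
  rcases hr0.eq_or_lt with hr | hr
  · -- `r = 0`: the family itself is a cover of cost `0`.
    subst hr
    refine ⟨F, fun H hH => ⟨H, hH, Finset.Subset.refl H⟩, ?_⟩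
    have hz : ∑ S ∈ F, ((0 : ℝ) / (25 * 512 ^ 4)) ^ S.card = 0 := by
      refine Finset.sum_eq_zero fun S hS => ?_
      have hS0 : S.card ≠ 0 := by
        intro h0
        exact hempty (Finset.card_eq_zero.mp h0 ▸ hS)
      rw [zero_div, zero_pow hS0]
    rw [hz]; norm_num
  · -- `r > 0`
    set γ : ℝ := g ∅ with hγ
    have hγ0 : 0 ≤ γ := (hg ∅).1
    have hterm : ∀ S : Finset α, 0 ≤ g S * r ^ S.card := fun S =>
      mul_nonneg (hg S).1 (pow_nonneg hr0 _)
    have hγle : γ ≤ ∑ S : Finset α, g S * r ^ S.card := by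
      have h1 : g ∅ * r ^ (∅ : Finset α).card ≤ ∑ S : Finset α, g S * r ^ S.card :=
        Finset.single_le_sum (f := fun S : Finset α => g S * r ^ S.card)
          (fun S _ => hterm S) (Finset.mem_univ ∅)
      simpa using h1
    have hγhalf : γ ≤ 1 / 2 := hγle.trans hcost
    have h1γ : 0 < 1 - γ := by linarith
    -- the normalised weights
    set g' : Finset α → ℝ := fun S => if S = ∅ then 0 else g S / (1 - γ) with hg'
    have hg'eq : ∀ S : Finset α, g' S = (g S - (if S = ∅ then γ else 0)) / (1 - γ) := by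
      intro S
      by_cases hS : S = ∅
      · subst hS; simp [hg', hγ]
      · simp [hg', hS]
    have hg'0 : ∀ S, 0 ≤ g' S := by
      intro S
      by_cases hS : S = ∅
      · simp [hg', hS]
      · simp only [hg', hS, if_false]
        exact div_nonneg (hg S).1 h1γ.le
    have hg'e : g' ∅ = 0 := by simp [hg']
    set r' : ℝ := 2 * c0 * r with hr'
    have h2c0 : 0 < 2 * c0 := by linarith
    have h2c1 : 2 * c0 ≤ 1 := by linarith
    have hr'0 : 0 < r' := mul_pos h2c0 hr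
    have hr'1 : r' ≤ 1 := by
      have : 2 * c0 * r ≤ 1 * 1 := mul_le_mul h2c1 hr1 hr.le (by norm_num)
      simpa [hr'] using this
    -- cost of the normalised weights at the level `r'`
    have hcost' : ∑ S : Finset α, g' S * r' ^ S.card ≤ c0 := by
      have hterm' : ∀ S : Finset α, g' S * r' ^ S.card ≤
          (2 * c0 / (1 - γ)) * (g S * r ^ S.card - (if S = ∅ then γ else 0)) := by
        intro S
        by_cases hS : S = ∅
        · subst hS; simp [hg', hγ]
        · have hcard : S.card ≠ 0 := fun h0 => hS (Finset.card_eq_zero.mp h0)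
          have hpow : (2 * c0) ^ S.card ≤ 2 * c0 := by
            have := pow_le_pow_of_le_one h2c0.le h2c1 (Nat.one_le_iff_ne_zero.mpr hcard)
            simpa using this
          have hrp : 0 ≤ r ^ S.card := pow_nonneg hr.le _
          have hgS : 0 ≤ g S / (1 - γ) := div_nonneg (hg S).1 h1γ.le
          simp only [hg', hS, if_false, sub_zero, hr']
          rw [show (2 * c0 * r) ^ S.card = (2 * c0) ^ S.card * r ^ S.card from mul_pow _ _ _]
          have : g S / (1 - γ) * ((2 * c0) ^ S.card * r ^ S.card) ≤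
              g S / (1 - γ) * ((2 * c0) * r ^ S.card) :=
            mul_le_mul_of_nonneg_left (mul_le_mul_of_nonneg_right hpow hrp) hgS
          calc g S / (1 - γ) * ((2 * c0) ^ S.card * r ^ S.card)
              ≤ g S / (1 - γ) * ((2 * c0) * r ^ S.card) := this
            _ = 2 * c0 / (1 - γ) * (g S * r ^ S.card) := by ring
      have hsum : ∑ S : Finset α, (2 * c0 / (1 - γ)) *
          (g S * r ^ S.card - (if S = ∅ then γ else 0)) =
          (2 * c0 / (1 - γ)) * ((∑ S : Finset α, g S * r ^ S.card) - γ) := by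
        rw [← Finset.mul_sum, Finset.sum_sub_distrib]
        congr 2
        simp
      calc ∑ S : Finset α, g' S * r' ^ S.card
          ≤ ∑ S : Finset α, (2 * c0 / (1 - γ)) *
              (g S * r ^ S.card - (if S = ∅ then γ else 0)) :=
            Finset.sum_le_sum fun S _ => hterm' S
        _ = (2 * c0 / (1 - γ)) * ((∑ S : Finset α, g S * r ^ S.card) - γ) := hsum
        _ ≤ (2 * c0 / (1 - γ)) * ((1 - γ) / 2) := by
            apply mul_le_mul_of_nonneg_left _ (div_nonneg h2c0.le h1γ.le)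
            linarith
        _ = c0 := by field_simp
    obtain ⟨G, hGcov, hGcost⟩ := h α g' r' hg'0 hg'e hr'0 hr'1 hcost'
    refine ⟨G, fun H hH => hGcov H ?_, ?_⟩
    · -- coverage of the normalised weights on `F`
      have hH1 := hcov H hH
      have hsum : ∑ S ∈ H.powerset, g' S =
          ((∑ S ∈ H.powerset, g S) - γ) / (1 - γ) := by
        rw [Finset.sum_congr rfl fun S _ => hg'eq S, ← Finset.sum_div,
          Finset.sum_sub_distrib]
        congr 2
        rw [Finset.sum_ite_eq' H.powerset ∅ fun _ => γ]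
        simp
      rw [hsum, le_div_iff₀ h1γ]
      linarith
    · -- cost at the frozen level
      refine le_trans (Finset.sum_le_sum fun S _ => ?_) hGcost
      have hpos : (0 : ℝ) < 25 * 512 ^ 4 := by norm_num
      refine pow_le_pow_left₀ (div_nonneg hr.le hpos.le) ?_ _
      rw [div_le_div_iff₀ hpos hK0, hr']
      nlinarith [mul_le_mul_of_nonneg_left hK hr.le]

/-- END WRAPPER, family-shaped core. -/
theorem s0071_of_coreF (c0 K0 : ℝ) (hc0 : 0 < c0) (hc0' : c0 ≤ 1 / 2) (hK0 : 0 < K0)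
    (hK : K0 ≤ 2 * c0 * (25 * 512 ^ 4)) (h : CoreF c0 K0)
    (α : Type) [Fintype α]
    [DecidableEq α] [Nonempty α] (F : Finset (Finset α)) (hne : F.Nonempty) (hempty : ∅ ∉ F)
    (hup : ∀ A ∈ F, ∀ B : Finset α, A ⊆ B → B ∈ F) (r : ℝ) (hr0 : 0 ≤ r) (hr1 : r ≤ 1)
    (g : Finset α → ℝ) (hg : ∀ S : Finset α, 0 ≤ g S ∧ g S ≤ 1)
    (hcov : ∀ H ∈ F, 1 ≤ ∑ S ∈ H.powerset, g S)
    (hcost : ∑ S : Finset α, g S * r ^ S.card ≤ 1 / 2) :
    ∃ G : Finset (Finset α), (∀ H ∈ F, ∃ S ∈ G, S ⊆ H) ∧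
      ∑ S ∈ G, (r / (25 * 512 ^ 4)) ^ S.card ≤ 1 / 2 :=
  s0071_of_core c0 K0 hc0 hc0' hK0 hK (Core.of_coreF h) α F hne hempty hup r hr0 hr1 g hg
    hcov hcost

end Crest.Agent.TR
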