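import Crest.Agent.TR.Engine
import Crest.Agent.TR.Patterns
import Crest.Agent.TR.Wrap71

/-!
# Row 52 (S0071) insurance library: the reduction (R)

helper83's reduction (board #1882), in Lean: the frozen statement S0071 follows from the
"half-capture" weighted fragment lemma `WSSF c₁ L₀` (the OPEN part of the row), with no
logarithmic loss: the density gap squares in every round.

* `Gf g H = ∑ S ⊆ H, g S`; `unc g W A = ∑ S ⊆ A, g S |S \ W| / |S|` (uncaptured gradient weight);
  `Good g W H`: some `A ⊆ W ∪ H` has `Gf g A ≥ 1` and `unc g W A ≤ Gf g A / 8`.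
* `WSSF c₁ L₀`: for every instance (`g ≥ 0`, `g ∅ = 0`, cost `≤ 1/2` at `r < 1`), every `p > 0`
  and `L ≥ L₀` with `64 L² p ≤ r` there are a bad event `B` of `mu (L p)`-probability `≤ 1/8` and
  fragment families `U W` that cover, for `W ∉ B`, every `H` with `Gf g H ≥ 1` that is not good
  for `W`, with expected cost `∑ W, mu (L p) W * cost p (U W) ≤ c₁ / L`.
* `res g W T'`: the residual weights (half-captured sets `S` with `S \ W = T'`).
* `res_cost_le`: the key computation `E_W ∑ T', res g W T' ρ^|T'| ≤ ∑ S, g S (2t)^|S| [|S| ≥ 2]`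
  whenever `q ≤ t`, `q ρ ≤ t²`.
* `Gf_le_of_unc`: a good `H` contains a set of residual weight `≥ 1/2`.
* `reduce : WSSF c₁ L₀ → L₀ ≤ 2^ℓ → 16 c₁ ≤ 2^ℓ → Core (1/2) (64 · 4^ℓ)` (`2 ≤ ℓ`), and
  `s0071_of_wssf`: the frozen statement S0071 from `WSSF c₁ L₀` with `L₀ ≤ 2^17`, `c₁ ≤ 8192`.

No statement of the row is proved here: `WSSF` is a hypothesis.
-/

set_option autoImplicit false

namespace Crest.Agent.TR

open Finset

section defs

variable {α : Type*} [Fintype α] [DecidableEq α]

/-- The total weight of the sets below `H`. -/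
noncomputable def Gf (g : Finset α → ℝ) (H : Finset α) : ℝ := ∑ S ∈ H.powerset, g S

/-- The uncaptured gradient weight of `A` relative to `W`. -/
noncomputable def unc (g : Finset α → ℝ) (W A : Finset α) : ℝ :=
  ∑ S ∈ A.powerset, g S * ((S \ W).card : ℝ) / (S.card : ℝ)

/-- `H` is good for `W`: some `A ⊆ W ∪ H` of weight at least `1` has at most an eighth of its
gradient weight outside `W`. -/
def Good (g : Finset α → ℝ) (W H : Finset α) : Prop :=
  ∃ A : Finset α, A ⊆ W ∪ H ∧ 1 ≤ Gf g A ∧ unc g W A ≤ Gf g A / 8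

/-- `S` is half-captured by `W`, but not contained in it. -/
def Mid (W S : Finset α) : Prop := (S \ W).Nonempty ∧ 2 * (S \ W).card ≤ S.card

instance (W S : Finset α) : Decidable (Mid W S) := by
  unfold Mid
  infer_instance

/-- The residual weights after exposing `W`. -/
noncomputable def res (g : Finset α → ℝ) (W T' : Finset α) : ℝ :=
  ∑ S ∈ (Finset.univ : Finset (Finset α)).filter (fun S => S \ W = T'),
    if Mid W S then g S else 0

omit [Fintype α] [DecidableEq α] in
theorem Gf_nonneg {g : Finset α → ℝ} (hg : ∀ S, 0 ≤ g S) (H : Finset α) : 0 ≤ Gf g H :=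
  Finset.sum_nonneg fun S _ => hg S

omit [DecidableEq α] in
theorem Gf_lt_one_of_one_le {g : Finset α → ℝ} (hg : ∀ S, 0 ≤ g S) {r : ℝ} (hr : 1 ≤ r)
    (hcost : ∑ S : Finset α, g S * r ^ S.card ≤ 1 / 2) (H : Finset α) : Gf g H < 1 := by
  have h1 : Gf g H ≤ ∑ S : Finset α, g S :=
    Finset.sum_le_sum_of_subset_of_nonneg (Finset.subset_univ _) fun S _ _ => hg S
  have h2 : ∑ S : Finset α, g S ≤ ∑ S : Finset α, g S * r ^ S.card :=
    Finset.sum_le_sum fun S _ => by
      have := one_le_pow₀ hr (n := S.card)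
      nlinarith [hg S]
  linarith

theorem res_nonneg {g : Finset α → ℝ} (hg : ∀ S, 0 ≤ g S) (W T' : Finset α) :
    0 ≤ res g W T' :=
  Finset.sum_nonneg fun S _ => by
    split_ifs
    · exact hg S
    · exact le_rfl

theorem res_empty (g : Finset α → ℝ) (W : Finset α) : res g W ∅ = 0 := by
  unfold res
  refine Finset.sum_eq_zero fun S hS => ?_
  have hS' : S \ W = ∅ := (Finset.mem_filter.1 hS).2
  have hM : ¬ Mid W S := by
    rintro ⟨hne, _⟩
    rw [hS'] at hne
    exact Finset.not_nonempty_empty hne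
  rw [if_neg hM]

/-- The cost of the residual weights, as a sum over the original sets. -/
theorem sum_res_mul_pow (g : Finset α → ℝ) (W : Finset α) (ρ : ℝ) :
    ∑ T' : Finset α, res g W T' * ρ ^ T'.card
      = ∑ S : Finset α, (if Mid W S then g S else 0) * ρ ^ (S \ W).card := by
  unfold res
  have h1 : ∀ T' : Finset α,
      (∑ S ∈ (Finset.univ : Finset (Finset α)).filter (fun S => S \ W = T'),
        if Mid W S then g S else 0) * ρ ^ T'.card
      = ∑ S ∈ (Finset.univ : Finset (Finset α)).filter (fun S => S \ W = T'),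
        (if Mid W S then g S else 0) * ρ ^ (S \ W).card := by
    intro T'
    rw [Finset.sum_mul]
    refine Finset.sum_congr rfl fun S hS => ?_
    rw [(Finset.mem_filter.1 hS).2]
  rw [Finset.sum_congr rfl fun T' _ => h1 T']
  exact Finset.sum_fiberwise (Finset.univ) (fun S : Finset α => S \ W) _

/-- One set `S`: the expected residual cost of `S` is at most `(2t)^|S|`, and `0` when
`|S| ≤ 1`. -/
theorem sum_mu_mid_le {q ρ t : ℝ} (hq0 : 0 ≤ q) (hq1 : q ≤ 1) (hρ : 0 ≤ ρ) (hqt : q ≤ t)
    (hqρ : q * ρ ≤ t ^ 2) (S : Finset α) :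
    ∑ W : Finset α, mu q W * (if Mid W S then ρ ^ (S \ W).card else 0)
      ≤ if 2 ≤ S.card then (2 * t) ^ S.card else 0 := by
  classical
  have ht0 : 0 ≤ t := hq0.trans hqt
  set 𝒯 : Finset (Finset α) :=
    S.powerset.filter (fun T' => T'.Nonempty ∧ 2 * T'.card ≤ S.card) with h𝒯
  have hpt : ∀ W : Finset α, (if Mid W S then ρ ^ (S \ W).card else 0)
      ≤ ∑ T' ∈ 𝒯, if S \ T' ⊆ W then ρ ^ T'.card else 0 := by
    intro W
    have hnn : ∀ T' ∈ 𝒯, (0:ℝ) ≤ if S \ T' ⊆ W then ρ ^ T'.card else 0 := by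
      intro T' _
      split_ifs
      · exact pow_nonneg hρ _
      · exact le_rfl
    by_cases hM : Mid W S
    · rw [if_pos hM]
      have hmem : S \ W ∈ 𝒯 := by
        rw [h𝒯, Finset.mem_filter, Finset.mem_powerset]
        exact ⟨Finset.sdiff_subset, hM.1, hM.2⟩
      have hsub : S \ (S \ W) ⊆ W := by
        intro x hx
        simp only [Finset.mem_sdiff, not_and, not_not] at hx
        exact hx.2 hx.1
      have hs := Finset.single_le_sum hnn hmem
      rw [if_pos hsub] at hs
      exact hs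
    · rw [if_neg hM]
      exact Finset.sum_nonneg hnn
  have hterm : ∀ T' ∈ 𝒯, ρ ^ T'.card * q ^ (S \ T').card ≤ t ^ S.card := by
    intro T' hT'
    rw [h𝒯, Finset.mem_filter, Finset.mem_powerset] at hT'
    obtain ⟨hsub, _, h2⟩ := hT'
    have hcard : (S \ T').card = T'.card + (S.card - 2 * T'.card) := by
      rw [Finset.card_sdiff_of_subset hsub]
      omega
    rw [hcard, pow_add, ← mul_assoc, ← mul_pow]
    have h1 : (ρ * q) ^ T'.card ≤ (t ^ 2) ^ T'.card :=
      pow_le_pow_left₀ (mul_nonneg hρ hq0) (by rw [mul_comm]; exact hqρ) _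
    have h2' : q ^ (S.card - 2 * T'.card) ≤ t ^ (S.card - 2 * T'.card) :=
      pow_le_pow_left₀ hq0 hqt _
    calc (ρ * q) ^ T'.card * q ^ (S.card - 2 * T'.card)
        ≤ (t ^ 2) ^ T'.card * t ^ (S.card - 2 * T'.card) :=
          mul_le_mul h1 h2' (pow_nonneg hq0 _) (pow_nonneg (pow_nonneg ht0 _) _)
      _ = t ^ S.card := by
          rw [← pow_mul, ← pow_add]
          congr 1
          omega
  calc ∑ W : Finset α, mu q W * (if Mid W S then ρ ^ (S \ W).card else 0)
      ≤ ∑ W : Finset α, mu q W * ∑ T' ∈ 𝒯, if S \ T' ⊆ W then ρ ^ T'.card else 0 :=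
        Finset.sum_le_sum fun W _ =>
          mul_le_mul_of_nonneg_left (hpt W) (mu_nonneg hq0 hq1 W)
    _ = ∑ T' ∈ 𝒯, ρ ^ T'.card * q ^ (S \ T').card := by
        rw [Finset.sum_congr rfl fun W _ => Finset.mul_sum _ _ _, Finset.sum_comm]
        refine Finset.sum_congr rfl fun T' _ => ?_
        rw [← sum_mu_superset q (S \ T'), Finset.mul_sum, Finset.sum_filter]
        refine Finset.sum_congr rfl fun W _ => ?_
        split_ifs <;> ring
    _ ≤ ∑ T' ∈ 𝒯, t ^ S.card := Finset.sum_le_sum hterm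
    _ = 𝒯.card * t ^ S.card := by rw [Finset.sum_const, nsmul_eq_mul]
    _ ≤ if 2 ≤ S.card then (2 * t) ^ S.card else 0 := by
        by_cases h2 : 2 ≤ S.card
        · rw [if_pos h2, mul_pow]
          have hc : (𝒯.card : ℝ) ≤ 2 ^ S.card := by
            have hc' := Finset.card_le_card (Finset.filter_subset
              (fun T' : Finset α => T'.Nonempty ∧ 2 * T'.card ≤ S.card) S.powerset)
            rw [Finset.card_powerset] at hc'
            exact_mod_cast hc'
          exact mul_le_mul_of_nonneg_right hc (pow_nonneg ht0 _)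
        · rw [if_neg h2]
          have he : 𝒯 = ∅ := by
            rw [Finset.eq_empty_iff_forall_notMem]
            intro T' hT'
            rw [h𝒯, Finset.mem_filter] at hT'
            have := Finset.card_pos.2 hT'.2.1
            omega
          rw [he]
          simp

/-- **Key computation.** A half-captured set has already paid `q^{|S|/2}`: the expected cost
of the residual weights at level `ρ` is at most the cost of the original weights at level `2t`,
sets of size `≤ 1` leaving no residual, whenever `q ≤ t` and `q ρ ≤ t²`. -/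
theorem res_cost_le {q ρ t : ℝ} (hq0 : 0 ≤ q) (hq1 : q ≤ 1) (hρ : 0 ≤ ρ) (hqt : q ≤ t)
    (hqρ : q * ρ ≤ t ^ 2) (g : Finset α → ℝ) (hg : ∀ S, 0 ≤ g S) :
    ∑ W : Finset α, mu q W * ∑ T' : Finset α, res g W T' * ρ ^ T'.card
      ≤ ∑ S : Finset α, g S * (if 2 ≤ S.card then (2 * t) ^ S.card else 0) := by
  have h1 : ∀ W : Finset α, mu q W * ∑ T' : Finset α, res g W T' * ρ ^ T'.card
      = ∑ S : Finset α, g S * (mu q W * (if Mid W S then ρ ^ (S \ W).card else 0)) := by
    intro W
    rw [sum_res_mul_pow, Finset.mul_sum]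
    refine Finset.sum_congr rfl fun S _ => ?_
    split_ifs <;> ring
  rw [Finset.sum_congr rfl fun W _ => h1 W, Finset.sum_comm]
  refine Finset.sum_le_sum fun S _ => ?_
  rw [← Finset.mul_sum]
  exact mul_le_mul_of_nonneg_left (sum_mu_mid_le hq0 hq1 hρ hqt hqρ S) (hg S)

/-- The weight of `A` splits into: sets inside `W`, half-captured sets (counted by the residual
weights below `A \ W`), and sets that are less than half captured (at most twice the uncaptured
gradient weight). -/
theorem Gf_le_of_unc {g : Finset α → ℝ} (hg : ∀ S, 0 ≤ g S) (W A : Finset α) :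
    Gf g A ≤ Gf g W + Gf (res g W) (A \ W) + 2 * unc g W A := by
  classical
  have hpt : ∀ S ∈ A.powerset, g S ≤ (if S ⊆ W then g S else 0)
      + (if Mid W S then g S else 0) + 2 * (g S * ((S \ W).card : ℝ) / (S.card : ℝ)) := by
    intro S _
    have hgS := hg S
    have h3 : (0:ℝ) ≤ 2 * (g S * ((S \ W).card : ℝ) / (S.card : ℝ)) := by positivity
    by_cases hSW : S ⊆ W
    · rw [if_pos hSW]
      have : (0:ℝ) ≤ if Mid W S then g S else 0 := by
        split_ifs
        · exact hgS
        · exact le_rfl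
      linarith
    · rw [if_neg hSW]
      have hne : (S \ W).Nonempty := by
        rw [Finset.nonempty_iff_ne_empty]
        intro he
        exact hSW (Finset.sdiff_eq_empty_iff_subset.1 he)
      by_cases hM : Mid W S
      · rw [if_pos hM]
        linarith
      · rw [if_neg hM]
        have hlt : S.card < 2 * (S \ W).card := by
          by_contra hcon
          exact hM ⟨hne, not_lt.1 hcon⟩
        have hSpos : (0:ℝ) < S.card := by
          have : 0 < S.card := by
            have h1 := Finset.card_pos.2 hne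
            have h2 := Finset.card_le_card (Finset.sdiff_subset (s := S) (t := W))
            omega
          exact_mod_cast this
        have hlt' : (S.card : ℝ) ≤ 2 * ((S \ W).card : ℝ) := by exact_mod_cast hlt.le
        have hkey : g S ≤ 2 * (g S * ((S \ W).card : ℝ) / (S.card : ℝ)) := by
          rw [mul_div_assoc, ← mul_assoc, mul_comm 2 (g S), mul_assoc]
          have h1 : (1:ℝ) ≤ 2 * (((S \ W).card : ℝ) / (S.card : ℝ)) := by
            rw [← mul_div_assoc, le_div_iff₀ hSpos]
            linarith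
          nlinarith
        linarith
  have hsum := Finset.sum_le_sum hpt
  rw [Finset.sum_add_distrib, Finset.sum_add_distrib, ← Finset.mul_sum] at hsum
  have hA : ∑ S ∈ A.powerset, (if S ⊆ W then g S else 0) ≤ Gf g W := by
    rw [← Finset.sum_filter]
    refine Finset.sum_le_sum_of_subset_of_nonneg ?_ fun S _ _ => hg S
    intro S hS
    rw [Finset.mem_filter] at hS
    exact Finset.mem_powerset.2 hS.2
  have hB : ∑ S ∈ A.powerset, (if Mid W S then g S else 0) ≤ Gf (res g W) (A \ W) := by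
    have hmaps : ∀ S ∈ A.powerset, S \ W ∈ (A \ W).powerset := by
      intro S hS
      rw [Finset.mem_powerset] at hS ⊢
      exact Finset.sdiff_subset_sdiff hS (Finset.Subset.refl W)
    rw [← Finset.sum_fiberwise_of_maps_to hmaps]
    unfold Gf res
    refine Finset.sum_le_sum fun T' _ => ?_
    refine Finset.sum_le_sum_of_subset_of_nonneg ?_ fun S _ _ => ?_
    · intro S hS
      rw [Finset.mem_filter] at hS ⊢
      exact ⟨Finset.mem_univ _, hS.2⟩
    · split_ifs
      · exact hg S
      · exact le_rfl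
  have hGA : Gf g A = ∑ S ∈ A.powerset, g S := rfl
  have hun : unc g W A = ∑ S ∈ A.powerset, g S * ((S \ W).card : ℝ) / (S.card : ℝ) := rfl
  rw [hGA, hun]
  linarith

end defs

/-- The "half-capture" weighted fragment lemma (the OPEN part of row 52), as a hypothesis.
`L` is the oversampling factor, `p` the target level, `r` the level of the fractional cover. -/
def WSSF (c₁ L₀ : ℝ) : Prop :=
  ∀ (α : Type) [Fintype α] [DecidableEq α] (g : Finset α → ℝ) (p L r : ℝ),
    (∀ S, 0 ≤ g S) → g ∅ = 0 → 0 < p → L₀ ≤ L → 64 * L ^ 2 * p ≤ r → r < 1 →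
    (∑ S : Finset α, g S * r ^ S.card) ≤ 1 / 2 →
    ∃ (B : Finset (Finset α)) (U : Finset α → Finset (Finset α)),
      (∑ W ∈ B, mu (L * p) W) ≤ 1 / 8 ∧
      (∀ W, W ∉ B → ∀ H : Finset α, 1 ≤ Gf g H → ¬ Good g W H → ∃ T ∈ U W, T ⊆ H) ∧
      (∑ W : Finset α, mu (L * p) W * cost p (U W)) ≤ c₁ / L

/-- The iteration: `n` bounds the number of rounds (`r · 4^n ≥ 1`), the oversampling factor
`2^ℓ` doubles in every round while the density gap squares. -/
theorem reduce_aux {c₁ L₀ : ℝ} (hc₁ : 0 < c₁) (h : WSSF c₁ L₀) (n : ℕ) :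
    ∀ (ℓ : ℕ), 2 ≤ ℓ → L₀ ≤ 2 ^ ℓ →
    ∀ (α : Type) [Fintype α] [DecidableEq α] (g : Finset α → ℝ) (p r : ℝ),
      (∀ S, 0 ≤ g S) → g ∅ = 0 → 0 < p → 0 < r → 64 * 4 ^ ℓ * p ≤ r →
      (∑ S : Finset α, g S * r ^ S.card) ≤ 1 / 2 → 1 ≤ r * 4 ^ n →
      ∃ G : Finset (Finset α),
        (∀ H : Finset α, 1 ≤ Gf g H → ∃ S ∈ G, S ⊆ H) ∧ cost p G ≤ 8 * c₁ / 2 ^ ℓ := by
  -- the trivial case `1 ≤ r`: nothing to cover
  have htriv : ∀ (ℓ : ℕ) (α : Type) [Fintype α] [DecidableEq α] (g : Finset α → ℝ) (p r : ℝ),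
      (∀ S, 0 ≤ g S) → (∑ S : Finset α, g S * r ^ S.card) ≤ 1 / 2 → 1 ≤ r →
      ∃ G : Finset (Finset α),
        (∀ H : Finset α, 1 ≤ Gf g H → ∃ S ∈ G, S ⊆ H) ∧ cost p G ≤ 8 * c₁ / 2 ^ ℓ := by
    intro ℓ α _ _ g p r hg hcost hr1
    refine ⟨∅, fun H hH => ?_, ?_⟩
    · exact absurd hH (not_le.2 (Gf_lt_one_of_one_le hg hr1 hcost H))
    · unfold cost
      rw [Finset.sum_empty]
      positivity
  induction n with
  | zero =>
    intro ℓ _ _ α _ _ g p r hg _ _ _ _ hcost hn
    exact htriv ℓ α g p r hg hcost (by simpa using hn)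
  | succ n ih =>
    intro ℓ hℓ hL α _ _ g p r hg hg0 hp hr hrp hcost hn
    rcases le_or_gt 1 r with hr1 | hr1
    · exact htriv ℓ α g p r hg hcost hr1
    · have hL4 : (4:ℝ) ≤ 2 ^ ℓ := by
        calc (4:ℝ) = 2 ^ 2 := by norm_num
          _ ≤ 2 ^ ℓ := pow_le_pow_right₀ (by norm_num) hℓ
      have hLsq : ((2:ℝ) ^ ℓ) ^ 2 = 4 ^ ℓ := by
        rw [← pow_mul, mul_comm, pow_mul]
        norm_num
      have hLpos : (0:ℝ) < 2 ^ ℓ := by positivity
      obtain ⟨B, U, hB, hU, hUcost⟩ :=
        h α g p (2 ^ ℓ) r hg hg0 hp hL (by rw [hLsq]; exact hrp) hr1 hcost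
      set q : ℝ := 2 ^ ℓ * p with hqdef
      have hq0 : 0 < q := mul_pos hLpos hp
      have hqr : 64 * 2 ^ ℓ * q ≤ r := by
        have : 64 * 2 ^ ℓ * q = 64 * 4 ^ ℓ * p := by
          rw [hqdef, ← hLsq]
          ring
        rw [this]
        exact hrp
      have hq256 : 256 * q ≤ r := by nlinarith
      have hq1 : q < 1 := by linarith
      set ρ : ℝ := r ^ 2 / (64 * q) with hρdef
      have hρ0 : 0 < ρ := by positivity
      have hqρ : q * ρ = (r / 8) ^ 2 := by
        rw [hρdef]
        field_simp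
        ring
      have hρr : 2 ^ ℓ * r ≤ ρ := by
        rw [hρdef, le_div_iff₀ (by positivity)]
        nlinarith [mul_le_mul_of_nonneg_left hqr hr.le]
      -- the residual cost
      set R : Finset α → ℝ := fun W => ∑ T' : Finset α, res g W T' * ρ ^ T'.card with hRdef
      have hR0 : ∀ W, 0 ≤ R W := fun W =>
        Finset.sum_nonneg fun T' _ => mul_nonneg (res_nonneg hg W T') (pow_nonneg hρ0.le _)
      -- the four expectations
      have hE0 : ∑ W : Finset α, mu q W * (if W ∈ B then (1:ℝ) else 0) ≤ 1 / 8 := by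
        have : ∑ W : Finset α, mu q W * (if W ∈ B then (1:ℝ) else 0) = ∑ W ∈ B, mu q W := by
          have e : ∀ W : Finset α, mu q W * (if W ∈ B then (1:ℝ) else 0)
              = if W ∈ B then mu q W else 0 := by
            intro W
            split_ifs <;> ring
          rw [Finset.sum_congr rfl fun W _ => e W, ← Finset.sum_filter]
          refine Finset.sum_congr ?_ fun _ _ => rfl
          ext W
          simp
        rw [this]
        exact hB
      have hE2 : ∑ W : Finset α, mu q W * Gf g W ≤ 1 / 512 := by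
        have h1 := sum_mu_mul_sum_powerset_le hq0.le (by linarith : q ≤ r) hr g hg hg0
        have h2 : q / r ≤ 1 / 256 := by
          rw [div_le_div_iff₀ hr (by norm_num)]
          linarith
        have h3 : (0:ℝ) ≤ ∑ S : Finset α, g S * r ^ S.card :=
          Finset.sum_nonneg fun S _ => mul_nonneg (hg S) (pow_nonneg hr.le _)
        unfold Gf
        calc ∑ W : Finset α, mu q W * ∑ S ∈ W.powerset, g S
            ≤ q / r * ∑ S : Finset α, g S * r ^ S.card := h1
          _ ≤ 1 / 256 * (1 / 2) := mul_le_mul h2 hcost h3 (by norm_num)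
          _ = 1 / 512 := by norm_num
      have hE3 : ∑ W : Finset α, mu q W * R W ≤ 1 / 32 := by
        have h1 := res_cost_le hq0.le hq1.le hρ0.le (by linarith : q ≤ r / 8) hqρ.le g hg
        have h2 : ∑ S : Finset α, g S * (if 2 ≤ S.card then (2 * (r / 8)) ^ S.card else 0)
            ≤ ∑ S : Finset α, g S * r ^ S.card / 16 := by
          refine Finset.sum_le_sum fun S _ => ?_
          rw [mul_div_assoc]
          refine mul_le_mul_of_nonneg_left ?_ (hg S)
          split_ifs with h2S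
          · have e : 2 * (r / 8) = r / 4 := by ring
            rw [e, div_pow, div_le_div_iff₀ (by positivity) (by norm_num)]
            have h16 : (16:ℝ) ≤ 4 ^ S.card := by
              calc (16:ℝ) = 4 ^ 2 := by norm_num
                _ ≤ 4 ^ S.card := pow_le_pow_right₀ (by norm_num) h2S
            exact mul_le_mul_of_nonneg_left h16 (pow_nonneg hr.le _)
          · positivity
        rw [← Finset.sum_div] at h2
        linarith
      -- the combined Markov function
      set Fn : Finset α → ℝ := fun W =>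
        (if W ∈ B then (1:ℝ) else 0) + 2 ^ ℓ / (4 * c₁) * cost p (U W) + 4 * Gf g W + 4 * R W
        with hFdef
      have hEF : ∑ W : Finset α, mu q W * Fn W ≤ 65 / 128 := by
        have hsplit : ∑ W : Finset α, mu q W * Fn W
            = ∑ W : Finset α, mu q W * (if W ∈ B then (1:ℝ) else 0)
              + 2 ^ ℓ / (4 * c₁) * ∑ W : Finset α, mu q W * cost p (U W)
              + 4 * ∑ W : Finset α, mu q W * Gf g W + 4 * ∑ W : Finset α, mu q W * R W := by
          rw [Finset.mul_sum, Finset.mul_sum, Finset.mul_sum, ← Finset.sum_add_distrib,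
            ← Finset.sum_add_distrib, ← Finset.sum_add_distrib]
          refine Finset.sum_congr rfl fun W _ => ?_
          rw [hFdef]
          ring
        have h1 : 2 ^ ℓ / (4 * c₁) * ∑ W : Finset α, mu q W * cost p (U W) ≤ 1 / 4 := by
          calc 2 ^ ℓ / (4 * c₁) * ∑ W : Finset α, mu q W * cost p (U W)
              ≤ 2 ^ ℓ / (4 * c₁) * (c₁ / 2 ^ ℓ) :=
                mul_le_mul_of_nonneg_left hUcost (by positivity)
            _ = 1 / 4 := by
                field_simp
        rw [hsplit]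
        linarith
      obtain ⟨W, hW⟩ := exists_le_of_sum_mu_le hq0.le hq1.le Fn _ hEF
      have hcU0 : 0 ≤ cost p (U W) := cost_nonneg hp.le _
      have hG0 : 0 ≤ Gf g W := Gf_nonneg hg W
      have hc4 : (0:ℝ) < 2 ^ ℓ / (4 * c₁) := by positivity
      have hWB : W ∉ B := by
        intro hWB
        rw [hFdef] at hW
        simp only [hWB, if_true] at hW
        nlinarith [hR0 W, mul_nonneg hc4.le hcU0]
      rw [hFdef] at hW
      simp only [hWB, if_false] at hW
      have hcU : cost p (U W) ≤ 4 * c₁ / 2 ^ ℓ := by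
        have h1 : 2 ^ ℓ / (4 * c₁) * cost p (U W) ≤ 1 := by nlinarith [hR0 W]
        rw [le_div_iff₀ hLpos]
        have h2 : 2 ^ ℓ / (4 * c₁) * cost p (U W) = cost p (U W) * 2 ^ ℓ / (4 * c₁) := by ring
        rw [h2, div_le_one (by positivity)] at h1
        exact h1
      have hGW : Gf g W ≤ 1 / 4 := by nlinarith [hR0 W, mul_nonneg hc4.le hcU0]
      have hRW : R W ≤ 1 / 4 := by nlinarith [hR0 W, mul_nonneg hc4.le hcU0]
      -- the residual instance
      set g' : Finset α → ℝ := fun T' => 2 * res g W T' with hg'def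
      have hg'0 : ∀ S, 0 ≤ g' S := fun S => by
        rw [hg'def]
        exact mul_nonneg (by norm_num) (res_nonneg hg W S)
      have hg'e : g' ∅ = 0 := by
        rw [hg'def]
        simp [res_empty]
      have hcost' : ∑ S : Finset α, g' S * ρ ^ S.card ≤ 1 / 2 := by
        have : ∑ S : Finset α, g' S * ρ ^ S.card = 2 * R W := by
          rw [hRdef, Finset.mul_sum]
          refine Finset.sum_congr rfl fun S _ => ?_
          rw [hg'def]
          ring
        rw [this]
        linarith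
      have hρp : 64 * 4 ^ (ℓ + 1) * p ≤ ρ := by
        have h1 : 64 * 4 ^ (ℓ + 1) * p = 4 * (64 * 4 ^ ℓ * p) := by ring
        have h2 : 4 * (64 * 4 ^ ℓ * p) ≤ 2 ^ ℓ * r := by nlinarith
        rw [h1]
        exact h2.trans hρr
      have hρn : 1 ≤ ρ * 4 ^ n := by
        have h1 : 4 * r ≤ ρ := by nlinarith
        have h2 : r * 4 ^ (n + 1) = 4 * r * 4 ^ n := by ring
        rw [h2] at hn
        exact hn.trans (mul_le_mul_of_nonneg_right h1 (by positivity))
      obtain ⟨G', hcov', hG'⟩ := ih (ℓ + 1) (by omega)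
        (hL.trans (pow_le_pow_right₀ (by norm_num) (Nat.le_succ ℓ))) α g' p ρ hg'0 hg'e hp hρ0
        hρp hcost' hρn
      refine ⟨U W ∪ G', fun H hH => ?_, ?_⟩
      · by_cases hgood : Good g W H
        · obtain ⟨A, hAsub, hA1, hAunc⟩ := hgood
          have hsplit := Gf_le_of_unc hg W A
          have hres : 1 ≤ Gf g' (A \ W) := by
            have : Gf g' (A \ W) = 2 * Gf (res g W) (A \ W) := by
              unfold Gf
              rw [Finset.mul_sum]
            rw [this]
            linarith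
          obtain ⟨S, hS, hSsub⟩ := hcov' (A \ W) hres
          refine ⟨S, Finset.mem_union_right _ hS, hSsub.trans ?_⟩
          intro x hx
          rw [Finset.mem_sdiff] at hx
          rcases Finset.mem_union.1 (hAsub hx.1) with hxW | hxH
          · exact absurd hxW hx.2
          · exact hxH
        · obtain ⟨T, hT, hTsub⟩ := hU W hWB H hH hgood
          exact ⟨T, Finset.mem_union_left _ hT, hTsub⟩
      · have h1 := cost_union_le hp.le (U W) G'
        have h2 : 8 * c₁ / 2 ^ (ℓ + 1) = 4 * c₁ / 2 ^ ℓ := by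
          rw [pow_succ]
          field_simp
          ring
        rw [h2] at hG'
        have h3 : 8 * c₁ / 2 ^ ℓ = 4 * c₁ / 2 ^ ℓ + 4 * c₁ / 2 ^ ℓ := by ring
        rw [h3]
        linarith

/-- **Reduction (R).** The half-capture fragment lemma implies the normalised rounding core
with loss constant `64 · 4^ℓ`. -/
theorem reduce {c₁ L₀ : ℝ} (hc₁ : 0 < c₁) (h : WSSF c₁ L₀) (ℓ : ℕ) (hℓ : 2 ≤ ℓ)
    (hL : L₀ ≤ 2 ^ ℓ) (hc : 16 * c₁ ≤ 2 ^ ℓ) : Core (1 / 2) (64 * 4 ^ ℓ) := by
  intro α _ _ g r hg hg0 hr0 _ hcost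
  obtain ⟨n, hn⟩ : ∃ n : ℕ, 1 ≤ r * 4 ^ n := by
    obtain ⟨n, hn⟩ := pow_unbounded_of_one_lt (1 / r) (by norm_num : (1:ℝ) < 4)
    refine ⟨n, ?_⟩
    rw [div_lt_iff₀ hr0] at hn
    linarith
  have hK : (0:ℝ) < 64 * 4 ^ ℓ := by positivity
  obtain ⟨G, hcov, hG⟩ := reduce_aux hc₁ h n ℓ hℓ hL α g (r / (64 * 4 ^ ℓ)) r hg hg0
    (div_pos hr0 hK) hr0 (by rw [mul_div_cancel₀ _ hK.ne']) hcost hn
  refine ⟨G, fun H hH => hcov H hH, le_trans hG ?_⟩
  rw [div_le_iff₀ (by positivity)]
  linarith

/-- The frozen statement S0071 from the half-capture fragment lemma with `L₀ ≤ 2^17` and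
`c₁ ≤ 8192`. -/
theorem s0071_of_wssf {c₁ L₀ : ℝ} (hc₁ : 0 < c₁) (hL : L₀ ≤ 2 ^ 17) (hc : c₁ ≤ 8192)
    (h : WSSF c₁ L₀)
    (α : Type) [Fintype α]
    [DecidableEq α] [Nonempty α] (F : Finset (Finset α)) (hne : F.Nonempty) (hempty : ∅ ∉ F)
    (hup : ∀ A ∈ F, ∀ B : Finset α, A ⊆ B → B ∈ F) (r : ℝ) (hr0 : 0 ≤ r) (hr1 : r ≤ 1)
    (g : Finset α → ℝ) (hg : ∀ S : Finset α, 0 ≤ g S ∧ g S ≤ 1)
    (hcov : ∀ H ∈ F, 1 ≤ ∑ S ∈ H.powerset, g S)
    (hcost : ∑ S : Finset α, g S * r ^ S.card ≤ 1 / 2) :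
    ∃ G : Finset (Finset α), (∀ H ∈ F, ∃ S ∈ G, S ⊆ H) ∧
      ∑ S ∈ G, (r / (25 * 512 ^ 4)) ^ S.card ≤ 1 / 2 :=
  s0071_of_core (1 / 2) (64 * 4 ^ 17) (by norm_num) le_rfl (by norm_num) (by norm_num)
    (reduce hc₁ h 17 (by norm_num) hL (by norm_num; linarith)) α F hne hempty hup r hr0 hr1 g hg
    hcov hcost

end Crest.Agent.TR
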