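/-
Row 52 insurance library (helper96): the reduction (R) of #1882 in Lean.

All names live in `Crest.Agent.TR.Round` (no clash with `TR/Reduce.lean`, which formalises
the same reduction with a slightly stronger hypothesis).
`Round.WSSF e L0 θ` = the weighted fragment lemma in its weakest usable form (cover only the
NON-ROUTED members, only for typical `W`, expected cost `≤ e L` at density gap `L`);
`core_of_wssf` : `WSSF e L0 θ` + a summability certificate `B` ⟹ `Core (1/2) (64 L²)`,
which `Wrap71.s0071_of_core` turns into the frozen S0071 text.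
Helper module only; no statement file.
-/
import Crest.Agent.TR.Engine
import Crest.Agent.TR.Wrap71

set_option autoImplicit false

namespace Crest.Agent.TR.Round

open Finset

section Resid

variable {α : Type*} [Fintype α] [DecidableEq α]

/-- The sets half-captured by `W`: not inside `W`, at most half of their points outside `W`. -/
def half (W : Finset α) : Finset (Finset α) :=
  Finset.univ.filter fun S => (S \ W).Nonempty ∧ 2 * (S \ W).card ≤ S.card

/-- Residual weights after revealing `W`: `T ↦ ∑ {g S : S half-captured, S \ W = T}`. -/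
noncomputable def resid (g : Finset α → ℝ) (W T : Finset α) : ℝ :=
  ∑ S ∈ (half W).filter (fun S => S \ W = T), g S

/-- Routed mass of `H` at `W`: the `g`-mass of the half-captured sets inside `W ∪ H`. -/
noncomputable def routed (g : Finset α → ℝ) (W H : Finset α) : ℝ :=
  ∑ S ∈ (half W).filter (fun S => S ⊆ W ∪ H), g S

theorem mem_half {W S : Finset α} :
    S ∈ half W ↔ (S \ W).Nonempty ∧ 2 * (S \ W).card ≤ S.card := by
  simp [half]

theorem resid_nonneg {g : Finset α → ℝ} (hg : ∀ S, 0 ≤ g S) (W T : Finset α) :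
    0 ≤ resid g W T :=
  Finset.sum_nonneg fun S _ => hg S

theorem resid_empty (g : Finset α → ℝ) (W : Finset α) : resid g W ∅ = 0 := by
  unfold resid
  rw [Finset.filter_false_of_mem, Finset.sum_empty]
  intro S hS h
  have := (mem_half.mp hS).1
  rw [h] at this
  exact Finset.not_nonempty_empty this

/-- Sums against the residual weights are sums over the half-captured sets. -/
theorem sum_resid_mul (g : Finset α → ℝ) (W : Finset α) (f : Finset α → ℝ) :
    ∑ T : Finset α, resid g W T * f T = ∑ S ∈ half W, g S * f (S \ W) := by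
  unfold resid
  have h : ∀ T : Finset α, (∑ S ∈ (half W).filter (fun S => S \ W = T), g S) * f T
      = ∑ S ∈ (half W).filter (fun S => S \ W = T), g S * f (S \ W) := by
    intro T
    rw [Finset.sum_mul]
    refine Finset.sum_congr rfl fun S hS => ?_
    rw [(Finset.mem_filter.mp hS).2]
  rw [Finset.sum_congr rfl fun T _ => h T]
  exact Finset.sum_fiberwise (half W) (fun S => S \ W) (fun S => g S * f (S \ W))

/-- The residual weights fractionally cover `H \ W` with total mass `routed g W H`. -/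
theorem sum_resid_powerset (g : Finset α → ℝ) (W H : Finset α) :
    ∑ T ∈ (H \ W).powerset, resid g W T = routed g W H := by
  unfold resid routed
  have h : ∀ T ∈ (H \ W).powerset, ∑ S ∈ (half W).filter (fun S => S \ W = T), g S
      = ∑ S ∈ ((half W).filter (fun S => S ⊆ W ∪ H)).filter (fun S => S \ W = T), g S := by
    intro T hT
    refine Finset.sum_congr ?_ fun _ _ => rfl
    ext S
    simp only [Finset.mem_filter]
    constructor
    · rintro ⟨hS, hST⟩
      refine ⟨⟨hS, ?_⟩, hST⟩
      intro x hx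
      by_cases hxW : x ∈ W
      · exact Finset.mem_union_left _ hxW
      · have hxT : x ∈ T := hST ▸ Finset.mem_sdiff.mpr ⟨hx, hxW⟩
        exact Finset.mem_union_right _ (Finset.mem_sdiff.mp (Finset.mem_powerset.mp hT hxT)).1
    · rintro ⟨⟨hS, _⟩, hST⟩
      exact ⟨hS, hST⟩
  rw [Finset.sum_congr rfl h]
  refine Finset.sum_fiberwise_of_maps_to (g := fun S => S \ W) ?_ _
  intro S hS
  rw [Finset.mem_powerset]
  have hsub := (Finset.mem_filter.mp hS).2
  intro x hx
  have hx' := Finset.mem_sdiff.mp hx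
  refine Finset.mem_sdiff.mpr ⟨?_, hx'.2⟩
  rcases Finset.mem_union.mp (hsub hx'.1) with h1 | h1
  · exact absurd h1 hx'.2
  · exact h1

theorem routed_nonneg {g : Finset α → ℝ} (hg : ∀ S, 0 ≤ g S) (W H : Finset α) :
    0 ≤ routed g W H :=
  Finset.sum_nonneg fun S _ => hg S

/-- Generating function of `(|S ∩ W|, |S \ W|)` under the product measure. -/
theorem sum_mu_mul_pow_inter_sdiff (q a b : ℝ) (S : Finset α) :
    ∑ W : Finset α, mu q W * (a ^ (S ∩ W).card * b ^ (S \ W).card)
      = (q * a + (1 - q) * b) ^ S.card := by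
  have h := Finset.prod_add (fun x : α => q * (if x ∈ S then a else 1))
    (fun x : α => (1 - q) * (if x ∈ S then b else 1)) Finset.univ
  rw [Finset.powerset_univ] at h
  have hL : ∏ x : α, (q * (if x ∈ S then a else 1) + (1 - q) * (if x ∈ S then b else 1))
      = (q * a + (1 - q) * b) ^ S.card := by
    have : ∀ x : α, q * (if x ∈ S then a else 1) + (1 - q) * (if x ∈ S then b else 1)
        = if x ∈ S then (q * a + (1 - q) * b) else 1 := by
      intro x; split_ifs <;> ring
    rw [Finset.prod_congr rfl fun x _ => this x, Finset.prod_ite_mem, Finset.univ_inter,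
      Finset.prod_const]
  rw [← hL, h]
  refine Finset.sum_congr rfl fun W _ => ?_
  rw [Finset.prod_mul_distrib, Finset.prod_mul_distrib, Finset.prod_const, Finset.prod_const,
    Finset.prod_ite_mem, Finset.prod_ite_mem, Finset.prod_const, Finset.prod_const]
  have h1 : W ∩ S = S ∩ W := Finset.inter_comm _ _
  have h2 : (Finset.univ \ W) ∩ S = S \ W := by
    ext x; simp [and_comm]
  have h3 : (Finset.univ \ W).card = Fintype.card α - W.card := by
    rw [Finset.card_sdiff_of_subset (Finset.subset_univ W), Finset.card_univ]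
  rw [h1, h2, h3]
  unfold mu
  ring

/-- KEY COMPUTATION of (R): the expected cost of the residual weights at level `ρ`.
A half-captured set has already paid for its captured half (`lam ≥ 1` is the tilt). -/
theorem sum_mu_resid_cost_le {g : Finset α → ℝ} (hg : ∀ S, 0 ≤ g S) {q ρ lam : ℝ}
    (hq0 : 0 ≤ q) (hq1 : q ≤ 1) (hρ : 0 ≤ ρ) (hlam : 1 ≤ lam) :
    ∑ W : Finset α, mu q W * ∑ T : Finset α, resid g W T * ρ ^ T.card
      ≤ ∑ S : Finset α, if 2 ≤ S.card then g S * (q * lam + ρ / lam) ^ S.card else 0 := by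
  have hlam0 : 0 < lam := lt_of_lt_of_le one_pos hlam
  have hstep : ∀ W : Finset α, mu q W * ∑ T : Finset α, resid g W T * ρ ^ T.card
      ≤ ∑ S : Finset α, if 2 ≤ S.card then
          g S * (mu q W * (lam ^ (S ∩ W).card * (ρ / lam) ^ (S \ W).card)) else 0 := by
    intro W
    rw [sum_resid_mul g W (fun T => ρ ^ T.card), Finset.mul_sum]
    have hconv : ∑ S ∈ half W, mu q W * (g S * ρ ^ (S \ W).card)
        = ∑ S : Finset α, if S ∈ half W then mu q W * (g S * ρ ^ (S \ W).card) else 0 := by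
      rw [Finset.sum_ite_mem, Finset.univ_inter]
    rw [hconv]
    refine Finset.sum_le_sum fun S _ => ?_
    have hμ : 0 ≤ mu q W := mu_nonneg hq0 hq1 W
    by_cases hS : S ∈ half W
    · obtain ⟨hne, hcard⟩ := mem_half.mp hS
      have hsplit : (S ∩ W).card + (S \ W).card = S.card := Finset.card_inter_add_card_sdiff S W
      have hpos : 0 < (S \ W).card := Finset.card_pos.mpr hne
      have h2 : 2 ≤ S.card := by omega
      have hle : (S \ W).card ≤ (S ∩ W).card := by omega
      rw [if_pos hS, if_pos h2]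
      have hkey : ρ ^ (S \ W).card ≤ lam ^ (S ∩ W).card * (ρ / lam) ^ (S \ W).card := by
        rw [div_pow]
        have hl1 : lam ^ (S \ W).card ≤ lam ^ (S ∩ W).card := pow_le_pow_right₀ hlam hle
        have hl0 : 0 < lam ^ (S \ W).card := pow_pos hlam0 _
        rw [← mul_div_assoc, le_div_iff₀ hl0]
        have := mul_le_mul_of_nonneg_left hl1 (pow_nonneg hρ (S \ W).card)
        linarith
      calc mu q W * (g S * ρ ^ (S \ W).card)
          = g S * (mu q W * ρ ^ (S \ W).card) := by ring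
        _ ≤ g S * (mu q W * (lam ^ (S ∩ W).card * (ρ / lam) ^ (S \ W).card)) :=
            mul_le_mul_of_nonneg_left (mul_le_mul_of_nonneg_left hkey hμ) (hg S)
    · rw [if_neg hS]
      split_ifs
      · exact mul_nonneg (hg S) (mul_nonneg hμ (mul_nonneg (pow_nonneg hlam0.le _)
          (pow_nonneg (div_nonneg hρ hlam0.le) _)))
      · exact le_rfl
  refine (Finset.sum_le_sum fun W _ => hstep W).trans ?_
  rw [Finset.sum_comm]
  refine Finset.sum_le_sum fun S _ => ?_
  by_cases h2 : 2 ≤ S.card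
  · simp only [if_pos h2]
    rw [← Finset.mul_sum, sum_mu_mul_pow_inter_sdiff]
    refine mul_le_mul_of_nonneg_left ?_ (hg S)
    have hq' : 0 ≤ 1 - q := by linarith
    have hd : 0 ≤ ρ / lam := div_nonneg hρ hlam0.le
    refine pow_le_pow_left₀ (by positivity) ?_ _
    have : (1 - q) * (ρ / lam) ≤ 1 * (ρ / lam) := mul_le_mul_of_nonneg_right (by linarith) hd
    linarith
  · simp [h2]

/-- First moment of the up-sum at a lower level: `E_q G(W) ≤ (q / r) · m_g(r)`. -/
theorem sum_mu_upsum_le {g : Finset α → ℝ} (hg : ∀ S, 0 ≤ g S) (hg0 : g ∅ = 0) {q r : ℝ}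
    (hq0 : 0 ≤ q) (hqr : q ≤ r) (hr : 0 < r) :
    ∑ W : Finset α, mu q W * ∑ S ∈ W.powerset, g S
      ≤ q / r * ∑ S : Finset α, g S * r ^ S.card := by
  rw [sum_mu_mul_sum_powerset, Finset.mul_sum]
  refine Finset.sum_le_sum fun S _ => ?_
  by_cases hS : S = ∅
  · subst hS; simp [hg0]
  · obtain ⟨k, hk⟩ : ∃ k, S.card = k + 1 :=
      Nat.exists_eq_succ_of_ne_zero fun h0 => hS (Finset.card_eq_zero.mp h0)
    rw [hk, pow_succ, pow_succ]
    have h1 : q ^ k ≤ r ^ k := pow_le_pow_left₀ hq0 hqr k
    have h2 : q / r * (g S * (r ^ k * r)) = g S * (r ^ k * q) := by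
      field_simp
    rw [h2]
    exact mul_le_mul_of_nonneg_left (mul_le_mul_of_nonneg_right h1 hq0) (hg S)

omit [DecidableEq α] in
/-- At a level `≥ 1` a fractional cover of cost `≤ 1/2` covers nothing. -/
theorem not_one_le_upsum_of_one_le {g : Finset α → ℝ} (hg : ∀ S, 0 ≤ g S) {r : ℝ}
    (hr : 1 ≤ r) (hm : ∑ S : Finset α, g S * r ^ S.card ≤ 1 / 2) (H : Finset α) :
    ¬ (1 ≤ ∑ S ∈ H.powerset, g S) := by
  have h1 : ∑ S ∈ H.powerset, g S ≤ ∑ S : Finset α, g S :=
    Finset.sum_le_sum_of_subset_of_nonneg (Finset.subset_univ _) fun S _ _ => hg S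
  have h2 : ∑ S : Finset α, g S ≤ ∑ S : Finset α, g S * r ^ S.card :=
    Finset.sum_le_sum fun S _ => by
      have : 1 ≤ r ^ S.card := one_le_pow₀ hr
      nlinarith [hg S]
  linarith

/-- Bridge to the `1/8`-capture form of #1882: if some `H' ⊆ W ∪ H` has `G(H') ≥ 1`, at most
`G(H')/8` of gradient weight outside `W`, and `G(W) < 1/4`, then `H` is routed with `θ = 1/2`. -/
theorem half_le_routed_of_captured {g : Finset α → ℝ} (hg : ∀ S, 0 ≤ g S) {W H H' : Finset α}
    (hH' : H' ⊆ W ∪ H) (hG : 1 ≤ ∑ S ∈ H'.powerset, g S)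
    (hW : ∑ S ∈ W.powerset, g S < 1 / 4)
    (hcap : ∑ S ∈ H'.powerset, g S * ((S \ W).card / S.card : ℝ)
      ≤ (∑ S ∈ H'.powerset, g S) / 8) :
    1 / 2 ≤ routed g W H := by
  -- pointwise: `g S ≤ [S ⊆ W] g S + [S half-captured] g S + 2 g S |S \ W| / |S|`
  have hpt : ∀ S ∈ H'.powerset, g S ≤ (if S ⊆ W then g S else 0)
      + (if S ∈ half W then g S else 0) + 2 * (g S * ((S \ W).card / S.card : ℝ)) := by
    intro S _
    have hfrac : 0 ≤ g S * ((S \ W).card / S.card : ℝ) :=
      mul_nonneg (hg S) (div_nonneg (Nat.cast_nonneg _) (Nat.cast_nonneg _))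
    by_cases h1 : S ⊆ W
    · rw [if_pos h1]
      have : 0 ≤ (if S ∈ half W then g S else 0) := by split_ifs <;> simp [hg S]
      linarith
    · rw [if_neg h1]
      have hne : (S \ W).Nonempty := by
        rw [Finset.nonempty_iff_ne_empty, Ne, Finset.sdiff_eq_empty_iff_subset]
        exact h1
      by_cases h2 : S ∈ half W
      · rw [if_pos h2]; linarith
      · rw [if_neg h2]
        have hlt : S.card < 2 * (S \ W).card := by
          by_contra hcon
          exact h2 (mem_half.mpr ⟨hne, not_lt.mp hcon⟩)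
        have hSpos : 0 < S.card := by
          have := Finset.card_pos.mpr hne
          have := Finset.card_le_card (Finset.sdiff_subset (s := S) (t := W))
          omega
        have hSpos' : (0 : ℝ) < S.card := by exact_mod_cast hSpos
        have hhalf : (1 : ℝ) / 2 ≤ ((S \ W).card / S.card : ℝ) := by
          rw [div_le_div_iff₀ (by norm_num) hSpos']
          have : (S.card : ℝ) ≤ 2 * (S \ W).card := by exact_mod_cast hlt.le
          linarith
        have := mul_le_mul_of_nonneg_left hhalf (hg S)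
        linarith
  have hsum := Finset.sum_le_sum hpt
  rw [Finset.sum_add_distrib, Finset.sum_add_distrib, ← Finset.mul_sum] at hsum
  have hA : ∑ S ∈ H'.powerset, (if S ⊆ W then g S else 0) ≤ ∑ S ∈ W.powerset, g S := by
    rw [← Finset.sum_filter]
    refine Finset.sum_le_sum_of_subset_of_nonneg ?_ fun S _ _ => hg S
    intro S hS
    exact Finset.mem_powerset.mpr (Finset.mem_filter.mp hS).2
  have hB : ∑ S ∈ H'.powerset, (if S ∈ half W then g S else 0) ≤ routed g W H := by
    rw [← Finset.sum_filter]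
    unfold routed
    refine Finset.sum_le_sum_of_subset_of_nonneg ?_ fun S _ _ => hg S
    intro S hS
    obtain ⟨h1, h2⟩ := Finset.mem_filter.mp hS
    exact Finset.mem_filter.mpr ⟨h2, (Finset.mem_powerset.mp h1).trans hH'⟩
  linarith

end Resid

/-- **The weighted fragment lemma** (WSS-F of #1882) in its weakest usable form.
Instance: weights `g ≥ 0`, `g ∅ = 0`, of cost `≤ 1/2` at the level `r = 64 L² p < 1`.
Output: families `U W` and an exceptional class `Bad` of `mu (L p)`-measure `≤ 1/4` such that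
for every `W ∉ Bad` with `∑_{S ⊆ W} g S < 1/4` the family `U W` covers every `H` with
`∑_{S ⊆ H} g S ≥ 1` whose routed mass `routed g W H` (the `g`-mass of the sets `S ⊆ W ∪ H`,
`S ⊄ W`, `2 |S \ W| ≤ |S|`) is `< θ`; and the expected cost of `U W` at level `p` is `≤ e L`. -/
def WSSF (e : ℝ → ℝ) (L0 θ : ℝ) : Prop :=
  ∀ (α : Type) [Fintype α] [DecidableEq α] (g : Finset α → ℝ) (p L : ℝ),
    (∀ S, 0 ≤ g S) → g ∅ = 0 → 0 < p → L0 ≤ L → 64 * L ^ 2 * p < 1 →
    (∑ S : Finset α, g S * (64 * L ^ 2 * p) ^ S.card) ≤ 1 / 2 →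
    ∃ (U : Finset α → Finset (Finset α)) (Bad : Finset (Finset α)),
      (∑ W ∈ Bad, mu (L * p) W) ≤ 1 / 4 ∧
      (∀ W H : Finset α, W ∉ Bad → (∑ S ∈ W.powerset, g S) < 1 / 4 →
          1 ≤ ∑ S ∈ H.powerset, g S → routed g W H < θ → ∃ S ∈ U W, S ⊆ H) ∧
      ∑ W : Finset α, mu (L * p) W * cost p (U W) ≤ e L

/-- **(R), the iteration.** One round: reveal `W ∼ mu (L p)`, cover the non-routed members by
`U W` (cost `< 8 e L`), pass the routed ones to the residual instance `resid g W / θ`, which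
lives at the level `64 L³ p ≥ 64 (φ L)² p` and the same `p`.  `B` certifies summability of
the losses along `L, φ L, φ (φ L), …`. -/
theorem round_induction {e φ B : ℝ → ℝ} {L0 θ : ℝ} (hθ : 1 / 8 ≤ θ) (hL0 : 4 ≤ L0)
    (he : ∀ L, L0 ≤ L → 0 < e L)
    (hφ : ∀ L, L0 ≤ L → 2 * L ≤ φ L ∧ φ L ^ 2 ≤ L ^ 3)
    (hB : ∀ L, L0 ≤ L → 8 * e L + B (φ L) ≤ B L)
    (hB0 : ∀ L, L0 ≤ L → 0 ≤ B L)
    (h : WSSF e L0 θ) (n : ℕ) :
    ∀ (α : Type) [Fintype α] [DecidableEq α] (g : Finset α → ℝ) (p L : ℝ),
      (∀ S, 0 ≤ g S) → g ∅ = 0 → 0 < p → L0 ≤ L →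
      (∑ S : Finset α, g S * (64 * L ^ 2 * p) ^ S.card) ≤ 1 / 2 →
      1 < 2 ^ n * (64 * L ^ 2 * p) →
      ∃ G : Finset (Finset α),
        (∀ H : Finset α, 1 ≤ ∑ S ∈ H.powerset, g S → ∃ S ∈ G, S ⊆ H) ∧ cost p G ≤ B L := by
  induction n with
  | zero =>
    intro α _ _ g p L hg _ _ hL hm hn
    have hr : 1 < 64 * L ^ 2 * p := by simpa using hn
    refine ⟨∅, fun H hH => absurd hH (not_one_le_upsum_of_one_le hg hr.le hm H), ?_⟩
    simpa [cost] using hB0 L hL
  | succ n ih =>
    intro α _ _ g p L hg hg0 hp hL hm hn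
    by_cases hr : 1 ≤ 64 * L ^ 2 * p
    · refine ⟨∅, fun H hH => absurd hH (not_one_le_upsum_of_one_le hg hr hm H), ?_⟩
      simpa [cost] using hB0 L hL
    · have hr1' : 64 * L ^ 2 * p < 1 := not_le.mp hr
      have hr1 : 64 * L ^ 2 * p ≤ 1 := hr1'.le
      have hL4 : 4 ≤ L := hL0.trans hL
      have hLpos : 0 < L := by linarith
      have hθ0 : 0 < θ := by linarith
      have hrpos : 0 < 64 * L ^ 2 * p := by positivity
      -- the parameters of the round
      set q : ℝ := L * p with hq
      set ρ : ℝ := 64 * L ^ 3 * p with hρ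
      have hq0 : 0 < q := mul_pos hLpos hp
      have hqr : 64 * L ^ 2 * p = q * (64 * L) := by rw [hq]; ring
      have hqle : q ≤ 64 * L ^ 2 * p := by
        rw [hqr]
        have : q * 1 ≤ q * (64 * L) := mul_le_mul_of_nonneg_left (by linarith) hq0.le
        linarith
      have hq1 : q ≤ 1 := hqle.trans hr1
      have hρ0 : 0 ≤ ρ := by rw [hρ]; positivity
      obtain ⟨U, Bad, hBad, hcov, hcost⟩ := h α g p L hg hg0 hp hL hr1' hm
      -- the four expectations
      have hE1 : ∑ W : Finset α, mu q W * ∑ S ∈ W.powerset, g S ≤ 1 / 512 := by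
        have h1 := sum_mu_upsum_le hg hg0 hq0.le hqle hrpos
        have h2 : q / (64 * L ^ 2 * p) = 1 / (64 * L) := by
          rw [hqr]; field_simp
        have h3 : (1 : ℝ) / (64 * L) ≤ 1 / 256 := by
          rw [div_le_div_iff₀ (by positivity) (by norm_num)]; linarith
        have h4 : q / (64 * L ^ 2 * p) * ∑ S : Finset α, g S * (64 * L ^ 2 * p) ^ S.card
            ≤ 1 / 256 * (1 / 2) := by
          rw [h2]
          exact mul_le_mul h3 hm (Finset.sum_nonneg fun S _ =>
            mul_nonneg (hg S) (pow_nonneg hrpos.le _)) (by norm_num)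
        linarith
      have hE2 : ∑ W : Finset α, mu q W * ∑ T : Finset α, resid g W T * ρ ^ T.card
          ≤ 1 / 32 := by
        have h1 := sum_mu_resid_cost_le (α := α) hg hq0.le hq1 hρ0
          (show (1 : ℝ) ≤ 8 * L by linarith)
        have h2 : q * (8 * L) + ρ / (8 * L) = 64 * L ^ 2 * p / 4 := by
          rw [hq, hρ]; field_simp; ring
        rw [h2] at h1
        have h3 : ∀ S : Finset α,
            (if 2 ≤ S.card then g S * (64 * L ^ 2 * p / 4) ^ S.card else 0)
              ≤ 1 / 16 * (g S * (64 * L ^ 2 * p) ^ S.card) := by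
          intro S
          have hnn : 0 ≤ g S * (64 * L ^ 2 * p) ^ S.card :=
            mul_nonneg (hg S) (pow_nonneg hrpos.le _)
          split_ifs with h2c
          · rw [div_pow]
            have h4 : (4 : ℝ) ^ 2 ≤ 4 ^ S.card := pow_le_pow_right₀ (by norm_num) h2c
            have h5 : (64 * L ^ 2 * p) ^ S.card / 4 ^ S.card
                ≤ (64 * L ^ 2 * p) ^ S.card / 4 ^ 2 :=
              div_le_div_of_nonneg_left (pow_nonneg hrpos.le _) (by norm_num) h4
            have h6 := mul_le_mul_of_nonneg_left h5 (hg S)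
            calc g S * ((64 * L ^ 2 * p) ^ S.card / 4 ^ S.card)
                ≤ g S * ((64 * L ^ 2 * p) ^ S.card / 4 ^ 2) := h6
              _ = 1 / 16 * (g S * (64 * L ^ 2 * p) ^ S.card) := by ring
          · linarith
        have h4 := Finset.sum_le_sum fun S (_ : S ∈ (Finset.univ : Finset (Finset α))) => h3 S
        rw [← Finset.mul_sum] at h4
        linarith
      have hE3 : ∑ W : Finset α, mu q W * (if W ∈ Bad then (1 : ℝ) else 0) ≤ 1 / 4 := by
        have : ∑ W : Finset α, mu q W * (if W ∈ Bad then (1 : ℝ) else 0)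
            = ∑ W ∈ Bad, mu q W := by
          have h1 : ∀ W : Finset α, mu q W * (if W ∈ Bad then (1 : ℝ) else 0)
              = if W ∈ Bad then mu q W else 0 := by
            intro W; split_ifs <;> simp
          rw [Finset.sum_congr rfl fun W _ => h1 W, Finset.sum_ite_mem, Finset.univ_inter]
        rw [this]; exact hBad
      have heL : 0 < e L := he L hL
      -- Markov + union bound: a good `W`
      obtain ⟨W, hW⟩ := exists_forall_lt_of_sum_lt_one (α := α) hq0.le hq1
        (Finset.univ : Finset (Fin 4))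
        ![fun W => cost p (U W), fun W => ∑ S ∈ W.powerset, g S,
          fun W => ∑ T : Finset α, resid g W T * ρ ^ T.card,
          fun W => if W ∈ Bad then (1 : ℝ) else 0]
        ![8 * e L, 1 / 4, θ / 2, 1]
        (by
          intro i _ W
          fin_cases i
          · exact cost_nonneg hp.le _
          · exact Finset.sum_nonneg fun S _ => hg S
          · exact Finset.sum_nonneg fun T _ =>
              mul_nonneg (resid_nonneg hg W T) (pow_nonneg hρ0 _)
          · show (0 : ℝ) ≤ if W ∈ Bad then (1 : ℝ) else 0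
            split_ifs <;> norm_num)
        (by
          intro i _
          fin_cases i
          · show 0 < 8 * e L
            linarith
          · show (0 : ℝ) < 1 / 4
            norm_num
          · show 0 < θ / 2
            linarith
          · show (0 : ℝ) < 1
            norm_num)
        (by
          rw [Fin.sum_univ_four]
          show (∑ W : Finset α, mu q W * cost p (U W)) / (8 * e L)
            + (∑ W : Finset α, mu q W * ∑ S ∈ W.powerset, g S) / (1 / 4)
            + (∑ W : Finset α, mu q W * ∑ T : Finset α, resid g W T * ρ ^ T.card) / (θ / 2)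
            + (∑ W : Finset α, mu q W * (if W ∈ Bad then (1 : ℝ) else 0)) / 1 < 1
          have e0 : (∑ W : Finset α, mu q W * cost p (U W)) / (8 * e L) ≤ 1 / 8 := by
            rw [div_le_iff₀ (by linarith)]; linarith
          have e1 : (∑ W : Finset α, mu q W * ∑ S ∈ W.powerset, g S) / (1 / 4) ≤ 1 / 128 := by
            rw [div_le_iff₀ (by norm_num)]; linarith
          have e2 : (∑ W : Finset α, mu q W * ∑ T : Finset α, resid g W T * ρ ^ T.card)
              / (θ / 2) ≤ 1 / 2 := by
            rw [div_le_iff₀ (by linarith)]; linarith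
          have e3 : (∑ W : Finset α, mu q W * (if W ∈ Bad then (1 : ℝ) else 0)) / 1
              ≤ 1 / 4 := by
            rw [div_one]; exact hE3
          linarith)
      have hW0 : cost p (U W) < 8 * e L := hW 0 (Finset.mem_univ _)
      have hW1 : ∑ S ∈ W.powerset, g S < 1 / 4 := hW 1 (Finset.mem_univ _)
      have hW2 : ∑ T : Finset α, resid g W T * ρ ^ T.card < θ / 2 := hW 2 (Finset.mem_univ _)
      have hW3 : W ∉ Bad := by
        have h3 : (if W ∈ Bad then (1 : ℝ) else 0) < 1 := hW 3 (Finset.mem_univ _)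
        intro hmem
        rw [if_pos hmem] at h3
        exact lt_irrefl _ h3
      -- the residual instance
      obtain ⟨hφ1, hφ2⟩ := hφ L hL
      have hφL : L0 ≤ φ L := by linarith
      have hφpos : 0 < φ L := by linarith
      have hlevel : 64 * φ L ^ 2 * p ≤ ρ := by
        rw [hρ]
        have : 64 * φ L ^ 2 * p ≤ 64 * L ^ 3 * p := by
          have := mul_le_mul_of_nonneg_right hφ2 hp.le
          linarith
        exact this
      have hg' : ∀ T : Finset α, 0 ≤ resid g W T / θ := fun T =>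
        div_nonneg (resid_nonneg hg W T) hθ0.le
      have hg'0 : resid g W ∅ / θ = 0 := by rw [resid_empty]; simp
      have hm' : ∑ T : Finset α, resid g W T / θ * (64 * φ L ^ 2 * p) ^ T.card ≤ 1 / 2 := by
        have h1 : ∑ T : Finset α, resid g W T / θ * (64 * φ L ^ 2 * p) ^ T.card
            ≤ ∑ T : Finset α, resid g W T / θ * ρ ^ T.card :=
          Finset.sum_le_sum fun T _ => mul_le_mul_of_nonneg_left
            (pow_le_pow_left₀ (by positivity) hlevel _) (hg' T)
        have h2 : ∑ T : Finset α, resid g W T / θ * ρ ^ T.card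
            = (∑ T : Finset α, resid g W T * ρ ^ T.card) / θ := by
          rw [Finset.sum_div]
          refine Finset.sum_congr rfl fun T _ => by ring
        have h3 : (∑ T : Finset α, resid g W T * ρ ^ T.card) / θ ≤ 1 / 2 := by
          rw [div_le_iff₀ hθ0]; linarith
        linarith
      have hn' : 1 < 2 ^ n * (64 * φ L ^ 2 * p) := by
        have h1 : (2 * L) ^ 2 ≤ φ L ^ 2 := pow_le_pow_left₀ (by linarith) hφ1 2
        have h2 : 2 ^ (n + 1) * (64 * L ^ 2 * p) ≤ 2 ^ n * (64 * φ L ^ 2 * p) := by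
          have h3 : 2 * (64 * L ^ 2 * p) ≤ 64 * φ L ^ 2 * p := by
            have := mul_le_mul_of_nonneg_right h1 hp.le
            nlinarith [sq_nonneg L, mul_nonneg (sq_nonneg L) hp.le]
          have h4 : (0 : ℝ) ≤ 2 ^ n := by positivity
          have := mul_le_mul_of_nonneg_left h3 h4
          rw [pow_succ]
          linarith
        linarith
      obtain ⟨G1, hG1cov, hG1cost⟩ := ih α (fun T => resid g W T / θ) p (φ L) hg' hg'0 hp
        hφL hm' hn'
      refine ⟨U W ∪ G1, fun H hH => ?_, ?_⟩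
      · by_cases hrt : routed g W H < θ
        · obtain ⟨S, hS, hSH⟩ := hcov W H hW3 hW1 hH hrt
          exact ⟨S, Finset.mem_union_left _ hS, hSH⟩
        · have hge : θ ≤ routed g W H := not_lt.mp hrt
          have h1 : 1 ≤ ∑ T ∈ (H \ W).powerset, resid g W T / θ := by
            rw [← Finset.sum_div, sum_resid_powerset, le_div_iff₀ hθ0]
            linarith
          obtain ⟨S, hS, hSH⟩ := hG1cov (H \ W) h1
          exact ⟨S, Finset.mem_union_right _ hS, hSH.trans Finset.sdiff_subset⟩
      · have := cost_union_le hp.le (U W) G1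
        have := hB L hL
        linarith

/-- **(R)**: the weighted fragment lemma implies the normalised rounding core, hence (by
`s0071_of_core`) the frozen S0071 as soon as `64 L² ≤ 25 · 512⁴`. -/
theorem core_of_wssf {e φ B : ℝ → ℝ} {L0 θ : ℝ} (hθ : 1 / 8 ≤ θ) (hL0 : 4 ≤ L0)
    (he : ∀ L, L0 ≤ L → 0 < e L)
    (hφ : ∀ L, L0 ≤ L → 2 * L ≤ φ L ∧ φ L ^ 2 ≤ L ^ 3)
    (hB : ∀ L, L0 ≤ L → 8 * e L + B (φ L) ≤ B L)
    (hB0 : ∀ L, L0 ≤ L → 0 ≤ B L)
    (h : WSSF e L0 θ) (L : ℝ) (hL : L0 ≤ L) (hBL : B L ≤ 1 / 2) :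
    Core (1 / 2) (64 * L ^ 2) := by
  intro α _ _ g r hg hg0 hr0 hr1 hcost
  have hLpos : 0 < L := by linarith
  have hK : (0 : ℝ) < 64 * L ^ 2 := by positivity
  have hp : 0 < r / (64 * L ^ 2) := div_pos hr0 hK
  have hrp : 64 * L ^ 2 * (r / (64 * L ^ 2)) = r := by field_simp
  obtain ⟨n, hn⟩ : ∃ n : ℕ, 1 < (2 : ℝ) ^ n * r := by
    obtain ⟨n, hn⟩ := pow_unbounded_of_one_lt (1 / r) (by norm_num : (1 : ℝ) < 2)
    refine ⟨n, ?_⟩
    rw [div_lt_iff₀ hr0] at hn
    exact hn
  obtain ⟨G, hGcov, hGcost⟩ := round_induction hθ hL0 he hφ hB hB0 h n α g (r / (64 * L ^ 2)) L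
    hg hg0 hp hL (by rw [hrp]; exact hcost) (by rw [hrp]; exact hn)
  exact ⟨G, hGcov, hGcost.trans hBL⟩

/-- (R) for the polynomial rate `e L = c1 / L` (geometric schedule `L, 2L, 4L, …`). -/
theorem core_of_wssf_inv {c1 L0 θ : ℝ} (hc1 : 0 < c1) (hθ : 1 / 8 ≤ θ) (hL0 : 4 ≤ L0)
    (h : WSSF (fun L => c1 / L) L0 θ) (L : ℝ) (hL : L0 ≤ L) (hc1L : 32 * c1 ≤ L) :
    Core (1 / 2) (64 * L ^ 2) := by
  refine core_of_wssf (e := fun L => c1 / L) (φ := fun L => 2 * L) (B := fun L => 16 * c1 / L)
    hθ hL0 ?_ ?_ ?_ ?_ h L hL ?_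
  · intro M hM
    have : 0 < M := by linarith
    positivity
  · intro M hM
    have hM4 : 4 ≤ M := hL0.trans hM
    refine ⟨le_rfl, ?_⟩
    have : 0 ≤ M ^ 2 * (M - 4) := mul_nonneg (sq_nonneg M) (by linarith)
    nlinarith
  · intro M hM
    have hMpos : 0 < M := by linarith
    show 8 * (c1 / M) + 16 * c1 / (2 * M) ≤ 16 * c1 / M
    have : 8 * (c1 / M) + 16 * c1 / (2 * M) = 16 * c1 / M := by
      field_simp; ring
    exact this.le
  · intro M hM
    have : 0 < M := by linarith
    positivity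
  · have hLpos : 0 < L := by linarith
    show 16 * c1 / L ≤ 1 / 2
    rw [div_le_div_iff₀ hLpos (by norm_num)]
    linarith

/-- END-TO-END: the weighted fragment lemma at rate `c1 / L` gives the frozen S0071 text. -/
theorem s0071_of_wssf {c1 L0 θ : ℝ} (hc1 : 0 < c1) (hθ : 1 / 8 ≤ θ) (hL0 : 4 ≤ L0)
    (h : WSSF (fun L => c1 / L) L0 θ) (L : ℝ) (hL : L0 ≤ L) (hc1L : 32 * c1 ≤ L)
    (hLK : L ≤ 163840)
    (α : Type) [Fintype α]
    [DecidableEq α] [Nonempty α] (F : Finset (Finset α)) (hne : F.Nonempty) (hempty : ∅ ∉ F)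
    (hup : ∀ A ∈ F, ∀ B : Finset α, A ⊆ B → B ∈ F) (r : ℝ) (hr0 : 0 ≤ r) (hr1 : r ≤ 1)
    (g : Finset α → ℝ) (hg : ∀ S : Finset α, 0 ≤ g S ∧ g S ≤ 1)
    (hcov : ∀ H ∈ F, 1 ≤ ∑ S ∈ H.powerset, g S)
    (hcost : ∑ S : Finset α, g S * r ^ S.card ≤ 1 / 2) :
    ∃ G : Finset (Finset α), (∀ H ∈ F, ∃ S ∈ G, S ⊆ H) ∧
      ∑ S ∈ G, (r / (25 * 512 ^ 4)) ^ S.card ≤ 1 / 2 := by
  have hLpos : 0 < L := by linarith
  refine s0071_of_core (1 / 2) (64 * L ^ 2) (by norm_num) le_rfl (by positivity) ?_
    (core_of_wssf_inv hc1 hθ hL0 h L hL hc1L) α F hne hempty hup r hr0 hr1 g hg hcov hcost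
  have h1 : L ^ 2 ≤ 163840 ^ 2 := pow_le_pow_left₀ hLpos.le hLK 2
  norm_num at h1 ⊢
  linarith

end Crest.Agent.TR.Round
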