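/-
Row 52 insurance library (helper96): compatibility of the two formalisations of (R).

`TR.WSSF c₁ L₀` (TR/Reduce.lean, `1/8`-capture form of #1882) implies
`TR.Round.WSSF (fun L => c₁ / L) L₀ (1/2)` (TR/Round.lean, routed-mass form): whoever proves
the fragment lemma may target either shape.  Helper module only; no statement file.
-/
import Crest.Agent.TR.Round
import Crest.Agent.TR.Reduce

set_option autoImplicit false

namespace Crest.Agent.TR.Round

open Finset

theorem wssf_of_reduce_wssf {c₁ L₀ : ℝ} (h : Crest.Agent.TR.WSSF c₁ L₀) :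
    WSSF (fun L => c₁ / L) L₀ (1 / 2) := by
  intro α _ _ g p L hg hg0 hp hL hr1 hm
  obtain ⟨B, U, hB, hcov, hcost⟩ := h α g p L (64 * L ^ 2 * p) hg hg0 hp hL le_rfl hr1 hm
  refine ⟨U, B, hB.trans (by norm_num), fun W H hW hGW hH hrt => ?_, hcost⟩
  refine hcov W hW H hH ?_
  rintro ⟨A, hA, hGA, hunc⟩
  have hcap : ∑ S ∈ A.powerset, g S * ((S \ W).card / S.card : ℝ)
      ≤ (∑ S ∈ A.powerset, g S) / 8 := by
    have : ∑ S ∈ A.powerset, g S * ((S \ W).card / S.card : ℝ) = unc g W A := by
      unfold unc
      refine Finset.sum_congr rfl fun S _ => ?_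
      rw [mul_div_assoc]
    rw [this]
    exact hunc
  have := half_le_routed_of_captured hg hA hGA hGW hcap
  linarith

end Crest.Agent.TR.Round
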