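import Crest.Agent.TR.Engine

/-!
# Row 52 (S0071–S0073) insurance library: the weighted selector theorem (ballot prefix)

Lean form of helper62's proof (board #1966) of the selector theorem for ARBITRARY weights.
Only the ORDER of the weights is used, so a member is a duplicate-free list of points
(heaviest first).

* `pre l k` : the set of the first `k` points of `l`.
* `kmax l W` : the last `k ≤ l.length` with `2 * |pre l k ∩ W| ≤ k` (the last time the ballot walk
  of `W` against `l` is nonnegative); `kmax l W = 0` iff `W` strictly leads on every nonempty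
  prefix.  `frag l W = pre l (kmax l W) \ W` is the ballot fragment.
* `selector_order` : for a finite set `M` of duplicate-free lists there are families `U W` of
  nonempty sets disjoint from `W` such that, whenever EVERY member is open at `W`
  (`1 ≤ kmax l W`), every member contains an element of `U W`; and
  `∑ W, mu q W * cost ρ (U W) ≤ 8 * β`, `β = ρ (1 - q) / q`, as soon as `4 β ≤ 1/2`.
* `one_le_kmax_of_capture_lt_half` : (Abel / ballot) if the weights are non-increasing along `l`
  and `W` carries less than half of the weight of `l`, then `1 ≤ kmax l W`.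
* `small_of_downset` : for a down-set `E` with `mu Q`-measure `≥ 1 - ε`, every family `F` of sets
  `S` having a weight `lam ≥ 0` with `lam(A) ≤ 1` on `E` and `lam(S) > 2` has a cover by nonempty
  sets of cost `≤ 8 β / (1 - ε)` at level `ρ` (board #1990 (1)).

No statement of the row is proved here.
-/

set_option autoImplicit false

namespace Crest.Agent.TR.Selector

open Finset

variable {α : Type*} [Fintype α] [DecidableEq α]

/-- The set of the first `k` points of the list `l`. -/
def pre (l : List α) (k : ℕ) : Finset α := (l.take k).toFinset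

omit [Fintype α] in
theorem pre_subset_toFinset (l : List α) (k : ℕ) : pre l k ⊆ l.toFinset := by
  intro x hx
  simp only [pre, List.mem_toFinset] at hx ⊢
  exact List.mem_of_mem_take hx

omit [Fintype α] in
theorem pre_mono (l : List α) {k k' : ℕ} (h : k ≤ k') : pre l k ⊆ pre l k' := by
  intro x hx
  simp only [pre, List.mem_toFinset] at hx ⊢
  exact List.take_subset_take_left l h hx

omit [Fintype α] in
theorem pre_card_le (l : List α) (k : ℕ) : (pre l k).card ≤ k := by
  unfold pre
  exact (List.toFinset_card_le _).trans (by simp)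

omit [Fintype α] in
theorem pre_card {l : List α} (hnd : l.Nodup) {k : ℕ} (hk : k ≤ l.length) :
    (pre l k).card = k := by
  unfold pre
  rw [List.toFinset_card_of_nodup (hnd.sublist (List.take_sublist k l))]
  simp [hk]

omit [Fintype α] in
theorem pre_length (l : List α) : pre l l.length = l.toFinset := by simp [pre]

omit [Fintype α] in
theorem pre_zero (l : List α) : pre l 0 = ∅ := by simp [pre]

omit [Fintype α] in
theorem pre_succ (l : List α) {k : ℕ} (hk : k < l.length) :
    pre l (k + 1) = insert l[k] (pre l k) := by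
  unfold pre
  rw [List.take_succ_eq_append_getElem hk]
  ext x
  rw [List.mem_toFinset, Finset.mem_insert, List.mem_toFinset, List.mem_append,
    List.mem_singleton]
  tauto

omit [Fintype α] in
theorem getElem_notMem_pre {l : List α} (hnd : l.Nodup) {k : ℕ} (hk : k < l.length) :
    l[k] ∉ pre l k := by
  unfold pre
  rw [List.mem_toFinset]
  intro hmem
  have h1 : (l.take (k + 1)).Nodup := hnd.sublist (List.take_sublist _ _)
  rw [List.take_succ_eq_append_getElem hk] at h1
  exact (List.nodup_append.1 h1).2.2 _ hmem _ (List.mem_singleton.2 rfl) rfl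

/-- The last `k ≤ l.length` at which `W` does not strictly lead on the prefix `pre l k`. -/
def kmax (l : List α) (W : Finset α) : ℕ :=
  Nat.findGreatest (fun k => 2 * (pre l k ∩ W).card ≤ k) l.length

omit [Fintype α] in
theorem kmax_le (l : List α) (W : Finset α) : kmax l W ≤ l.length := Nat.findGreatest_le _

omit [Fintype α] in
theorem kmax_spec (l : List α) (W : Finset α) : 2 * (pre l (kmax l W) ∩ W).card ≤ kmax l W := by
  have h := Nat.findGreatest_spec (P := fun k => 2 * (pre l k ∩ W).card ≤ k)
    (Nat.zero_le l.length) (by simp [pre])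
  exact h

omit [Fintype α] in
theorem lt_of_kmax_lt (l : List α) (W : Finset α) {k : ℕ} (h1 : kmax l W < k)
    (h2 : k ≤ l.length) : k < 2 * (pre l k ∩ W).card := by
  have h := Nat.findGreatest_is_greatest (P := fun k => 2 * (pre l k ∩ W).card ≤ k) h1 h2
  exact not_le.1 h

omit [Fintype α] in
theorem kmax_le_of (l : List α) (W : Finset α) {k : ℕ}
    (h : ∀ k', k < k' → k' ≤ l.length → k' < 2 * (pre l k' ∩ W).card) : kmax l W ≤ k := by
  by_contra hcon
  have hcon' : k < kmax l W := not_le.1 hcon
  have h1 := h _ hcon' (kmax_le l W)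
  have h2 := kmax_spec l W
  omega

/-- The ballot fragment of the member `l` against `W`. -/
def frag (l : List α) (W : Finset α) : Finset α := pre l (kmax l W) \ W

omit [Fintype α] in
theorem frag_disjoint (l : List α) (W : Finset α) : Disjoint W (frag l W) := by
  unfold frag
  exact Finset.disjoint_sdiff

omit [Fintype α] in
theorem kmax_le_two_mul_frag {l : List α} (hnd : l.Nodup) (W : Finset α) :
    kmax l W ≤ 2 * (frag l W).card := by
  have h1 := kmax_spec l W
  have h2 := pre_card hnd (kmax_le l W)
  have h3 := Finset.card_sdiff_add_card_inter (pre l (kmax l W)) W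
  unfold frag
  omega

/-- The candidates for the target `l0`: members whose ballot prefix lies in `W ∪ l0`. -/
def cand (M : Finset (List α)) (W : Finset α) (l0 : List α) : Finset (List α) :=
  M.filter (fun l => pre l (kmax l W) ⊆ W ∪ l0.toFinset)

open Classical in
/-- The fragment family: ballot fragments of the candidates of minimal fragment size, over all
targets; empty unless every member is open at `W`. -/
noncomputable def fragFamily (M : Finset (List α)) (W : Finset α) : Finset (Finset α) :=
  if ∀ l ∈ M, 1 ≤ kmax l W then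
    (M.filter (fun l => ∃ l0 ∈ M, l ∈ cand M W l0 ∧
      ∀ l' ∈ cand M W l0, (frag l W).card ≤ (frag l' W).card)).image (fun l => frag l W)
  else ∅

open Classical in
/-- The `Z`-measurable class of (member, prefix length) pairs used for decoding. -/
noncomputable def cls (M : Finset (List α)) (Z : Finset α) (u : ℕ) : Finset (List α × ℕ) :=
  (M ×ˢ Finset.range (Fintype.card α + 1)).filter (fun p =>
    1 ≤ p.2 ∧ p.2 ≤ p.1.length ∧ pre p.1 p.2 ⊆ Z ∧
      ∀ k', p.2 < k' → k' ≤ p.1.length → k' + 2 * u < 2 * (pre p.1 k' ∩ Z).card)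

open Classical in
/-- The canonical prefix read off `(Z, u)`: the prefix of an element of `cls M Z u` of smallest
length (empty if the class is empty or that length exceeds `2 u`). -/
noncomputable def canon (M : Finset (List α)) (Z : Finset α) (u : ℕ) : Finset α :=
  if h : (cls M Z u).Nonempty then
    (if (Classical.choose (Finset.exists_min_image (cls M Z u) (fun p => p.2) h)).2 ≤ 2 * u then
      pre (Classical.choose (Finset.exists_min_image (cls M Z u) (fun p => p.2) h)).1
        (Classical.choose (Finset.exists_min_image (cls M Z u) (fun p => p.2) h)).2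
    else ∅)
  else ∅

/-- The admissible sets of `Z`: the `u`-subsets of the canonical prefix of `(Z, u)`. -/
noncomputable def adm (M : Finset (List α)) (Z : Finset α) : Finset (Finset α) :=
  (Finset.Icc 1 (Fintype.card α)).biUnion (fun u => Finset.powersetCard u (canon M Z u))

theorem canon_card_le (M : Finset (List α)) (Z : Finset α) (u : ℕ) :
    (canon M Z u).card ≤ 2 * u := by
  unfold canon
  split_ifs with h h2
  · exact (pre_card_le _ _).trans h2
  · simp
  · simp

/-- (a) The encoder's pair lies in the class of `Z = W ∪ frag l W`. -/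
theorem mem_cls_of_frag {M : Finset (List α)} (hnd : ∀ l ∈ M, l.Nodup) {W : Finset α}
    {l : List α} (hlM : l ∈ M) (hopen : 1 ≤ kmax l W) :
    (l, kmax l W) ∈ cls M (W ∪ frag l W) (frag l W).card := by
  classical
  unfold cls
  rw [Finset.mem_filter, Finset.mem_product, Finset.mem_range]
  have hlen : l.length ≤ Fintype.card α := (hnd l hlM).length_le_card
  have hk := kmax_le l W
  refine ⟨⟨hlM, by omega⟩, hopen, hk, ?_, ?_⟩
  · intro x hx
    by_cases hxW : x ∈ W
    · exact Finset.mem_union_left _ hxW
    · exact Finset.mem_union_right _ (Finset.mem_sdiff.2 ⟨hx, hxW⟩)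
  · intro k' hk' hk'len
    have h1 := lt_of_kmax_lt l W hk' hk'len
    have hsub : frag l W ⊆ pre l k' := fun x hx =>
      pre_mono l hk'.le (Finset.mem_sdiff.1 hx).1
    have hcard : (pre l k' ∩ (W ∪ frag l W)).card
        = (pre l k' ∩ W).card + (frag l W).card := by
      rw [Finset.inter_union_distrib_left, Finset.card_union_of_disjoint]
      · rw [Finset.inter_eq_right.2 hsub]
      · exact Finset.disjoint_of_subset_left Finset.inter_subset_right
          (Finset.disjoint_of_subset_right Finset.inter_subset_right (frag_disjoint l W))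
    rw [hcard]
    omega

/-- (b) Every pair of the class of `Z = W ∪ T` has a prefix containing `T`, when `T` is the
fragment of a candidate of minimal fragment size. -/
theorem frag_subset_of_cls {M : Finset (List α)} {W : Finset α} {l l0 : List α}
    (hl : l ∈ cand M W l0)
    (hmin : ∀ l' ∈ cand M W l0, (frag l W).card ≤ (frag l' W).card)
    {p : List α × ℕ} (hp : p ∈ cls M (W ∪ frag l W) (frag l W).card) :
    frag l W ⊆ pre p.1 p.2 := by
  classical
  unfold cls at hp
  rw [Finset.mem_filter, Finset.mem_product] at hp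
  obtain ⟨⟨hpM, -⟩, -, -, hpZ, hpk⟩ := hp
  -- the fragment lies in the target
  have hT0 : frag l W ⊆ l0.toFinset := by
    intro x hx
    have hx' := Finset.mem_sdiff.1 hx
    have h := (Finset.mem_filter.1 hl).2 hx'.1
    rcases Finset.mem_union.1 h with h | h
    · exact absurd h hx'.2
    · exact h
  -- (i) the ballot prefix of `p.1` against `W` is at most `p.2`
  have hk : kmax p.1 W ≤ p.2 := by
    apply kmax_le_of
    intro k' hk' hk'len
    have h1 := hpk k' hk' hk'len
    have h2 : (pre p.1 k' ∩ (W ∪ frag l W)).card ≤ (pre p.1 k' ∩ W).card + (frag l W).card := by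
      rw [Finset.inter_union_distrib_left]
      refine (Finset.card_union_le _ _).trans ?_
      exact Nat.add_le_add_left (Finset.card_le_card Finset.inter_subset_right) _
    omega
  -- (ii) `p.1` is a candidate
  have hsub1 : pre p.1 (kmax p.1 W) ⊆ W ∪ frag l W := (pre_mono p.1 hk).trans hpZ
  have hcand : p.1 ∈ cand M W l0 := by
    unfold cand
    rw [Finset.mem_filter]
    refine ⟨hpM, fun x hx => ?_⟩
    rcases Finset.mem_union.1 (hsub1 hx) with h | h
    · exact Finset.mem_union_left _ h
    · exact Finset.mem_union_right _ (hT0 h)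
  -- (iii) its fragment is inside `T`, hence equal to `T`
  have hfr : frag p.1 W ⊆ frag l W := by
    intro x hx
    have hx' := Finset.mem_sdiff.1 hx
    rcases Finset.mem_union.1 (hsub1 hx'.1) with h | h
    · exact absurd h hx'.2
    · exact h
  have heq : frag p.1 W = frag l W := Finset.eq_of_subset_of_card_le hfr (hmin _ hcand)
  -- (iv)
  intro x hx
  rw [← heq] at hx
  exact pre_mono p.1 hk (Finset.mem_sdiff.1 hx).1

/-- Every fragment is disjoint from `W`, nonempty, and admissible for `Z = W ∪ T`. -/
theorem fragFamily_adm {M : Finset (List α)} (hnd : ∀ l ∈ M, l.Nodup) (W T : Finset α)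
    (hT : T ∈ fragFamily M W) : Disjoint W T ∧ T.Nonempty ∧ T ∈ adm M (W ∪ T) := by
  classical
  unfold fragFamily at hT
  split_ifs at hT with hopen
  swap
  · simp at hT
  obtain ⟨l, hl, rfl⟩ := Finset.mem_image.1 hT
  obtain ⟨hlM, l0, -, hlc, hmin⟩ := Finset.mem_filter.1 hl
  have hkm := kmax_le_two_mul_frag (hnd l hlM) W
  have hop := hopen l hlM
  have hpos : 1 ≤ (frag l W).card := by omega
  refine ⟨frag_disjoint l W, Finset.card_pos.1 hpos, ?_⟩
  unfold adm
  rw [Finset.mem_biUnion]
  refine ⟨(frag l W).card, Finset.mem_Icc.2 ⟨hpos, Finset.card_le_univ _⟩, ?_⟩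
  rw [Finset.mem_powersetCard]
  refine ⟨?_, rfl⟩
  have hmem := mem_cls_of_frag hnd (W := W) hlM hop
  have hne : (cls M (W ∪ frag l W) (frag l W).card).Nonempty := ⟨_, hmem⟩
  have hspec := Classical.choose_spec
    (Finset.exists_min_image (cls M (W ∪ frag l W) (frag l W).card) (fun p => p.2) hne)
  have hle : (Classical.choose
      (Finset.exists_min_image (cls M (W ∪ frag l W) (frag l W).card) (fun p => p.2) hne)).2
      ≤ 2 * (frag l W).card := (hspec.2 _ hmem).trans hkm
  have hcanon : canon M (W ∪ frag l W) (frag l W).card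
      = pre (Classical.choose
          (Finset.exists_min_image (cls M (W ∪ frag l W) (frag l W).card) (fun p => p.2) hne)).1
        (Classical.choose
          (Finset.exists_min_image (cls M (W ∪ frag l W) (frag l W).card) (fun p => p.2) hne)).2 := by
    unfold canon
    rw [dif_pos hne, if_pos hle]
  rw [hcanon]
  exact frag_subset_of_cls hlc hmin hspec.1

theorem cost_adm_le (M : Finset (List α)) (Z : Finset α) {β : ℝ} (hβ : 0 ≤ β) :
    cost β (adm M Z) ≤ ∑ u ∈ Finset.Icc 1 (Fintype.card α), (4 * β) ^ u := by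
  classical
  unfold adm
  refine (cost_biUnion_le hβ _ _).trans (Finset.sum_le_sum fun u _ => ?_)
  unfold cost
  have hterm : ∀ T ∈ Finset.powersetCard u (canon M Z u), β ^ T.card = β ^ u := fun T hT => by
    rw [(Finset.mem_powersetCard.1 hT).2]
  rw [Finset.sum_congr rfl hterm, Finset.sum_const, nsmul_eq_mul, Finset.card_powersetCard,
    mul_pow]
  refine mul_le_mul_of_nonneg_right ?_ (pow_nonneg hβ u)
  have h1 : (canon M Z u).card.choose u ≤ 2 ^ (canon M Z u).card := Nat.choose_le_two_pow _ _
  have h2 : 2 ^ (canon M Z u).card ≤ 2 ^ (2 * u) :=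
    Nat.pow_le_pow_right (by norm_num) (canon_card_le M Z u)
  have h3 : (2 : ℕ) ^ (2 * u) = 4 ^ u := by rw [pow_mul]; norm_num
  have h4 : (canon M Z u).card.choose u ≤ 4 ^ u := (h1.trans h2).trans h3.le
  exact_mod_cast h4

omit [Fintype α] [DecidableEq α] in
theorem sum_Icc_pow_le {x : ℝ} (h0 : 0 ≤ x) (h1 : x ≤ 1 / 2) (N : ℕ) :
    ∑ u ∈ Finset.Icc 1 N, x ^ u ≤ 2 * x - 2 * x ^ (N + 1) := by
  induction N with
  | zero => simp
  | succ n ih =>
    rw [Finset.sum_Icc_succ_top (by omega)]
    have hp : 0 ≤ x ^ (n + 1) := pow_nonneg h0 _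
    have hs : x ^ (n + 1 + 1) = x ^ (n + 1) * x := pow_succ _ _
    nlinarith

/-- **Weighted selector theorem, order form** (helper62, board #1966). -/
theorem selector_order (M : Finset (List α)) (hnd : ∀ l ∈ M, l.Nodup) :
    ∃ U : Finset α → Finset (Finset α),
      (∀ W, ∀ T ∈ U W, T.Nonempty ∧ Disjoint W T) ∧
      (∀ W, (∀ l ∈ M, 1 ≤ kmax l W) → ∀ l ∈ M, ∃ T ∈ U W, T ⊆ l.toFinset) ∧
      (∀ q ρ : ℝ, 0 < q → q ≤ 1 → 0 ≤ ρ → 4 * (ρ * (1 - q) / q) ≤ 1 / 2 →
          ∑ W : Finset α, mu q W * cost ρ (U W) ≤ 8 * (ρ * (1 - q) / q)) := by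
  classical
  refine ⟨fragFamily M, ?_, ?_, ?_⟩
  · intro W T hT
    obtain ⟨h1, h2, -⟩ := fragFamily_adm hnd W T hT
    exact ⟨h2, h1⟩
  · intro W hopen l0 hl0
    have hne : (cand M W l0).Nonempty := by
      refine ⟨l0, ?_⟩
      unfold cand
      rw [Finset.mem_filter]
      exact ⟨hl0, fun x hx => Finset.mem_union_right _ (pre_subset_toFinset _ _ hx)⟩
    obtain ⟨l, hl, hmin⟩ :=
      Finset.exists_min_image (cand M W l0) (fun l => (frag l W).card) hne
    refine ⟨frag l W, ?_, ?_⟩
    · unfold fragFamily
      rw [if_pos hopen]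
      exact Finset.mem_image.2
        ⟨l, Finset.mem_filter.2 ⟨(Finset.mem_filter.1 hl).1, l0, hl0, hl, hmin⟩, rfl⟩
    · intro x hx
      have hx' := Finset.mem_sdiff.1 hx
      have h := (Finset.mem_filter.1 hl).2 hx'.1
      rcases Finset.mem_union.1 h with h | h
      · exact absurd h hx'.2
      · exact h
  · intro q ρ hq0 hq1 hρ hβ
    have h1q : 0 ≤ 1 - q := by linarith
    have hβ0 : 0 ≤ ρ * (1 - q) / q := by positivity
    have h := engine hq0 hq1 hρ (fragFamily M) (adm M)
      (fun W T hT => ⟨(fragFamily_adm hnd W T hT).1, (fragFamily_adm hnd W T hT).2.2⟩)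
    refine h.trans ?_
    have hZ : ∀ Z : Finset α, mu q Z * ∑ T ∈ adm M Z, (ρ * (1 - q) / q) ^ T.card
        ≤ mu q Z * (8 * (ρ * (1 - q) / q)) := by
      intro Z
      refine mul_le_mul_of_nonneg_left ?_ (mu_nonneg hq0.le hq1 Z)
      have ha := cost_adm_le M Z hβ0
      have hb := sum_Icc_pow_le (x := 4 * (ρ * (1 - q) / q)) (by positivity) hβ (Fintype.card α)
      have hc : 0 ≤ (4 * (ρ * (1 - q) / q)) ^ (Fintype.card α + 1) := by positivity
      unfold cost at ha
      linarith
    refine (Finset.sum_le_sum fun Z _ => hZ Z).trans ?_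
    rw [← Finset.sum_mul, sum_mu, one_mul]

/-! ### The ballot (Abel) lemma -/

omit [Fintype α] in
/-- Abel summation in inductive form: if `W` strictly leads on every nonempty prefix of `l` and
the weights are non-increasing along `l`, then for every prefix and every `0 ≤ c` below the
weights of the prefix, `c * (#W-points - #other points) ≤ w(W-points) - w(other points)`. -/
theorem ballot_key {l : List α} (hnd : l.Nodup) (w : α → ℝ)
    (hsorted : l.Pairwise (fun a b => w b ≤ w a)) (W : Finset α)
    (hlead : ∀ k, 1 ≤ k → k ≤ l.length → k < 2 * (pre l k ∩ W).card) :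
    ∀ k, k ≤ l.length → ∀ c : ℝ, 0 ≤ c → (∀ y ∈ pre l k, c ≤ w y) →
      c * (((pre l k ∩ W).card : ℝ) - ((pre l k \ W).card : ℝ))
        ≤ ∑ x ∈ pre l k ∩ W, w x - ∑ x ∈ pre l k \ W, w x := by
  intro k
  induction k with
  | zero =>
    intro _ c _ _
    simp [pre_zero]
  | succ k ih =>
    intro hk c hc hcw
    have hk' : k < l.length := by omega
    have hpre := pre_succ l hk'
    have hxn := getElem_notMem_pre hnd hk'
    have hwx : ∀ y ∈ pre l k, w l[k] ≤ w y := by
      intro y hy
      have h1 : (l.take (k + 1)).Pairwise (fun a b => w b ≤ w a) :=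
        hsorted.sublist (List.take_sublist _ _)
      rw [List.take_succ_eq_append_getElem hk'] at h1
      have hy' : y ∈ l.take k := by
        unfold pre at hy
        exact List.mem_toFinset.1 hy
      exact (List.pairwise_append.1 h1).2.2 y hy' l[k] (List.mem_singleton.2 rfl)
    have hcx : c ≤ w l[k] := hcw l[k] (by rw [hpre]; exact Finset.mem_insert_self _ _)
    have hx0 : 0 ≤ w l[k] := hc.trans hcx
    have ihx := ih (by omega) (w l[k]) hx0 hwx
    have hlead' := hlead (k + 1) (by omega) hk
    have hcard := pre_card hnd hk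
    have hsplit := Finset.card_sdiff_add_card_inter (pre l (k + 1)) W
    by_cases hxW : l[k] ∈ W
    · have e1 : pre l (k + 1) ∩ W = insert l[k] (pre l k ∩ W) := by
        rw [hpre, Finset.insert_inter_of_mem hxW]
      have e2 : pre l (k + 1) \ W = pre l k \ W := by
        rw [hpre, Finset.insert_sdiff_of_mem _ hxW]
      have hxn' : l[k] ∉ pre l k ∩ W := fun h => hxn (Finset.mem_inter.1 h).1
      rw [e1, e2, Finset.card_insert_of_notMem hxn'] at hsplit
      rw [e1, Finset.card_insert_of_notMem hxn'] at hlead'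
      rw [e1, e2, Finset.sum_insert hxn', Finset.card_insert_of_notMem hxn']
      have hab : ((pre l k \ W).card : ℝ) ≤ ((pre l k ∩ W).card : ℝ) + 1 := by
        have : (pre l k \ W).card ≤ (pre l k ∩ W).card + 1 := by omega
        exact_mod_cast this
      push_cast
      nlinarith [mul_le_mul_of_nonneg_right hcx (sub_nonneg.2 hab)]
    · have e1 : pre l (k + 1) ∩ W = pre l k ∩ W := by
        rw [hpre, Finset.insert_inter_of_notMem hxW]
      have e2 : pre l (k + 1) \ W = insert l[k] (pre l k \ W) := by
        rw [hpre, Finset.insert_sdiff_of_notMem _ hxW]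
      have hxn' : l[k] ∉ pre l k \ W := fun h => hxn (Finset.mem_sdiff.1 h).1
      rw [e1, e2, Finset.card_insert_of_notMem hxn'] at hsplit
      rw [e1] at hlead'
      rw [e1, e2, Finset.sum_insert hxn', Finset.card_insert_of_notMem hxn']
      have hab : ((pre l k \ W).card : ℝ) + 1 ≤ ((pre l k ∩ W).card : ℝ) := by
        have : (pre l k \ W).card + 1 ≤ (pre l k ∩ W).card := by omega
        exact_mod_cast this
      push_cast
      nlinarith [mul_le_mul_of_nonneg_right hcx (sub_nonneg.2 hab)]

omit [Fintype α] in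
/-- **Ballot lemma** (step (1) of #1966): if the weights are non-increasing along `l` and `W`
carries less than half of the weight of `l`, then some nonempty prefix of `l` has at least as
many points outside `W` as inside, i.e. `l` is open at `W`. -/
theorem one_le_kmax_of_capture_lt_half {l : List α} (hnd : l.Nodup) (w : α → ℝ)
    (h0 : ∀ x ∈ l, 0 ≤ w x) (hsorted : l.Pairwise (fun a b => w b ≤ w a)) (W : Finset α)
    (h : 2 * ∑ x ∈ l.toFinset ∩ W, w x < ∑ x ∈ l.toFinset, w x) : 1 ≤ kmax l W := by
  by_contra hcon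
  have hk0 : kmax l W = 0 := by omega
  have hlead : ∀ k, 1 ≤ k → k ≤ l.length → k < 2 * (pre l k ∩ W).card :=
    fun k hk1 hk2 => lt_of_kmax_lt l W (by omega) hk2
  have key := ballot_key hnd w hsorted W hlead l.length le_rfl 0 le_rfl
    (fun y hy => h0 y (List.mem_toFinset.1 (pre_subset_toFinset _ _ hy)))
  rw [pre_length] at key
  have hsum : ∑ x ∈ l.toFinset \ W, w x + ∑ x ∈ l.toFinset ∩ W, w x
      = ∑ x ∈ l.toFinset, w x := by
    have := Finset.sum_sdiff (f := w) (Finset.inter_subset_left (s₁ := l.toFinset) (s₂ := W))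
    rwa [Finset.sdiff_inter_self_left] at this
  linarith

/-- **Weighted selector theorem, global form** (helper62, board #1966): members are
duplicate-free lists with weights non-increasing along the list; if `W` carries less than half
of the weight of EVERY member, every member contains a fragment of `U W`. -/
theorem selector_weighted (M : Finset (List α)) (hnd : ∀ l ∈ M, l.Nodup)
    (w : List α → α → ℝ) (h0 : ∀ l ∈ M, ∀ x ∈ l, 0 ≤ w l x)
    (hsorted : ∀ l ∈ M, l.Pairwise (fun a b => w l b ≤ w l a)) :
    ∃ U : Finset α → Finset (Finset α),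
      (∀ W, ∀ T ∈ U W, T.Nonempty ∧ Disjoint W T) ∧
      (∀ W, (∀ l ∈ M, 2 * ∑ x ∈ l.toFinset ∩ W, w l x < ∑ x ∈ l.toFinset, w l x) →
          ∀ l ∈ M, ∃ T ∈ U W, T ⊆ l.toFinset) ∧
      (∀ q ρ : ℝ, 0 < q → q ≤ 1 → 0 ≤ ρ → 4 * (ρ * (1 - q) / q) ≤ 1 / 2 →
          ∑ W : Finset α, mu q W * cost ρ (U W) ≤ 8 * (ρ * (1 - q) / q)) := by
  obtain ⟨U, hU1, hU2, hU3⟩ := selector_order M hnd
  refine ⟨U, hU1, fun W hW => hU2 W fun l hl => ?_, hU3⟩
  exact one_le_kmax_of_capture_lt_half (hnd l hl) (w l) (h0 l hl) (hsorted l hl) W (hW l hl)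

/-! ### The down-set corollary (board #1990 (1)) -/

open Classical in
/-- The points of `S` listed by non-increasing weight. -/
noncomputable def sortedList (S : Finset α) (w : α → ℝ) : List α :=
  S.toList.insertionSort (fun a b => w b ≤ w a)

omit [Fintype α] [DecidableEq α] in
theorem sortedList_nodup (S : Finset α) (w : α → ℝ) : (sortedList S w).Nodup := by
  classical
  unfold sortedList
  exact (List.perm_insertionSort _ _).nodup_iff.2 (Finset.nodup_toList S)

omit [Fintype α] in
theorem sortedList_toFinset (S : Finset α) (w : α → ℝ) : (sortedList S w).toFinset = S := by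
  classical
  unfold sortedList
  rw [List.toFinset_eq_of_perm _ _ (List.perm_insertionSort _ _), Finset.toList_toFinset]

omit [Fintype α] [DecidableEq α] in
theorem sortedList_pairwise (S : Finset α) (w : α → ℝ) :
    (sortedList S w).Pairwise (fun a b => w b ≤ w a) := by
  classical
  unfold sortedList
  have : Std.Total (fun a b : α => w b ≤ w a) := ⟨fun a b => le_total _ _⟩
  have : IsTrans α (fun a b : α => w b ≤ w a) := ⟨fun a b c hab hbc => hbc.trans hab⟩
  exact List.pairwise_insertionSort _ _

/-- **Selector part of S0072** (board #1990 (1)). Let `E` be a down-set with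
`mu Q`-measure at least `1 - ε`, and `F` a family of sets `S` each having a weight `lam ≥ 0`
with `lam(A) ≤ 1` for all `A ∈ E` and `lam(S) > 2` (fractional covering number by `E` above
`2`). Then `F` has a cover by nonempty sets of cost at most `8 β / (1 - ε)` at level `ρ`,
`β = ρ (1 - Q) / Q`. -/
theorem small_of_downset (E F : Finset (Finset α))
    (hE : ∀ A ∈ E, ∀ B : Finset α, B ⊆ A → B ∈ E)
    (Q ρ ε : ℝ) (hQ0 : 0 < Q) (hQ1 : Q ≤ 1) (hρ : 0 ≤ ρ) (hβ : 4 * (ρ * (1 - Q) / Q) ≤ 1 / 2)
    (hε : ε < 1) (hmu : 1 - ε ≤ ∑ W ∈ E, mu Q W)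
    (hF : ∀ S ∈ F, ∃ lam : α → ℝ, (∀ x, 0 ≤ lam x) ∧ (∀ A ∈ E, ∑ x ∈ A, lam x ≤ 1) ∧
        2 < ∑ x ∈ S, lam x) :
    ∃ G : Finset (Finset α), (∀ T ∈ G, T.Nonempty) ∧ (∀ S ∈ F, ∃ T ∈ G, T ⊆ S) ∧
      (1 - ε) * cost ρ G ≤ 8 * (ρ * (1 - Q) / Q) := by
  classical
  choose! lam hlam using hF
  set M : Finset (List α) := F.image (fun S => sortedList S (lam S)) with hM
  have hnd : ∀ l ∈ M, l.Nodup := by
    intro l hl
    obtain ⟨S, -, rfl⟩ := Finset.mem_image.1 hl
    exact sortedList_nodup _ _
  obtain ⟨U, hU1, hU2, hU3⟩ := selector_order M hnd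
  have hcost := hU3 Q ρ hQ0 hQ1 hρ hβ
  have hEne : E.Nonempty := by
    by_contra hne
    rw [Finset.not_nonempty_iff_eq_empty] at hne
    rw [hne] at hmu
    simp at hmu
    linarith
  obtain ⟨W, hWE, hWmin⟩ := Finset.exists_min_image E (fun W => cost ρ (U W)) hEne
  refine ⟨U W, fun T hT => (hU1 W T hT).1, ?_, ?_⟩
  · intro S hS
    have hopen : ∀ l ∈ M, 1 ≤ kmax l W := by
      intro l hl
      obtain ⟨S', hS', rfl⟩ := Finset.mem_image.1 hl
      obtain ⟨h0, h1, h2⟩ := hlam S' hS'
      apply one_le_kmax_of_capture_lt_half (sortedList_nodup _ _) (lam S')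
        (fun x _ => h0 x) (sortedList_pairwise _ _)
      rw [sortedList_toFinset]
      have h3 : ∑ x ∈ S' ∩ W, lam S' x ≤ 1 :=
        h1 (S' ∩ W) (hE W hWE _ Finset.inter_subset_right)
      linarith
    obtain ⟨T, hT, hTS⟩ := hU2 W hopen (sortedList S (lam S)) (Finset.mem_image.2 ⟨S, hS, rfl⟩)
    rw [sortedList_toFinset] at hTS
    exact ⟨T, hT, hTS⟩
  · have h1 : ∑ W' ∈ E, mu Q W' * cost ρ (U W) ≤ ∑ W' ∈ E, mu Q W' * cost ρ (U W') :=
      Finset.sum_le_sum fun W' hW' =>
        mul_le_mul_of_nonneg_left (hWmin W' hW') (mu_nonneg hQ0.le hQ1 W')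
    have h2 : ∑ W' ∈ E, mu Q W' * cost ρ (U W') ≤ ∑ W' : Finset α, mu Q W' * cost ρ (U W') :=
      Finset.sum_le_sum_of_subset_of_nonneg (Finset.subset_univ _)
        (fun W' _ _ => mul_nonneg (mu_nonneg hQ0.le hQ1 W') (cost_nonneg hρ _))
    rw [← Finset.sum_mul] at h1
    have hc := cost_nonneg hρ (U W)
    nlinarith

end Crest.Agent.TR.Selector
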